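import Vale.Agent.P022G.Lb.Defs
import Vale.Agent.P022G.Sel.Bas
import Vale.Agent.P022G.Sel.Dual

/-!
# P022G, block Lb: from the abstract lower bound to the adjoint representation
-/

set_option linter.all false

noncomputable section

namespace P022G.Lb.Ad

open NumberField Cardinal
open Vale.Agent.P022
open Vale.Agent.P027M.S (Inert)
open Vale.Agent.P022D.Sel (M2 IsDec Ginf)
open Vale.Agent.P022E.GW (Ov Op Ur)
open P022G.Sel P022G.Sel.Bas

section ring

variable {R : Type} [CommRing R]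

/-- the functional attached to a matrix -/
def fm (l : R →+ ZMod 2) (x : M2 R) : Du (M2 R) where
  toFun v := l (x * v).trace
  map_zero' := by rw [mul_zero, Matrix.trace_zero, map_zero]
  map_add' v w := by rw [mul_add, Matrix.trace_add, map_add]

theorem fm_apply (l : R →+ ZMod 2) (x v : M2 R) : fm l x v = l (x * v).trace := rfl

theorem fm_add (l : R →+ ZMod 2) (x y v : M2 R) : fm l (x + y) v = fm l x v + fm l y v := by
  rw [fm_apply, fm_apply, fm_apply, add_mul, Matrix.trace_add, map_add]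

theorem fm_sub (l : R →+ ZMod 2) (x y v : M2 R) : fm l (x - y) v = fm l x v - fm l y v := by
  rw [fm_apply, fm_apply, fm_apply, sub_mul, Matrix.trace_sub, map_sub]

theorem fm_inj {l : R →+ ZMod 2} (hl : ∀ r, (∀ s, l (r * s) = 0) → r = 0) {x y : M2 R}
    (h : ∀ v, fm l x v = fm l y v) : x = y := by
  rw [← sub_eq_zero]
  ext i j
  refine hl _ fun s => ?_
  have := fm_sub l x y (Matrix.single j i s)
  rw [h, sub_self, fm_apply, Matrix.trace_mul_single] at this
  simpa [mul_comm] using this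

theorem fm_ad (l : R →+ ZMod 2) {ρ : GQ →* GL (Fin 2) R} {a : Ac (M2 R)} (ha : IsAd ρ a)
    (x v : M2 R) (g : GQ) : fm l x (a g v) = fm l (mr ρ g⁻¹ * x * mr ρ g) v := by
  rw [fm_apply, fm_apply, ha, ← mul_assoc, Matrix.trace_mul_comm]
  simp only [mul_assoc]

/-- the matrices with last entry zero -/
def xm (y : Fin 3 → R) : M2 R := !![y 0, y 1; y 2, 0]

theorem cen {ρ : GQ →* GL (Fin 2) R} {δ : R}
    (hδ : ∀ Z : M2 R, δ • Z ∈ Submodule.span R (Set.range (mr ρ))) {y y' : Fin 3 → R}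
    (h : ∀ g, mr ρ g⁻¹ * (xm y - xm y') * mr ρ g = xm y - xm y') (i : Fin 3) :
    δ * (y i - y' i) = 0 := by
  have c : ∀ W ∈ Submodule.span R (Set.range (mr ρ)), (xm y - xm y') * W = W * (xm y - xm y') := by
    intro W hW
    refine Submodule.span_induction (p := fun W _ => (xm y - xm y') * W = W * (xm y - xm y'))
      ?_ ?_ ?_ ?_ hW
    · rintro _ ⟨g, rfl⟩
      conv_rhs => rw [← h g]
      rw [← mul_assoc, ← mul_assoc, mi', one_mul]
    · rw [mul_zero, zero_mul]
    · intro u v _ _ hu hv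
      rw [mul_add, add_mul, hu, hv]
    · intro r u _ hu
      rw [mul_smul_comm, smul_mul_assoc, hu]
  have c1 := c _ (hδ !![1, 0; 0, 0])
  have c2 := c _ (hδ !![0, 1; 0, 0])
  have e1 := congrFun (congrFun c1 0) 1
  have e2 := congrFun (congrFun c1 1) 0
  have e3 := congrFun (congrFun c2 0) 1
  simp [xm, Matrix.mul_apply, Fin.sum_univ_two] at e1 e2 e3
  fin_cases i
  · simp only [Fin.zero_eta]
    linear_combination e3
  · simp only [Fin.mk_one]
    linear_combination -e1
  · simp only [Fin.reduceFinMk]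
    linear_combination e2

theorem core [Finite R] {l : R →+ ZMod 2} (hl : ∀ r, (∀ s, l (r * s) = 0) → r = 0)
    {ρ : GQ →* GL (Fin 2) R} {δ : R}
    (hδ : ∀ Z : M2 R, δ • Z ∈ Submodule.span R (Set.range (mr ρ))) {T : Finset ℕ}
    {D : ℕ → Set GQ} {a : Ac (M2 R)} (ha : IsAd ρ a) (hM : Md a T) (hf : (H1R ρ T).Finite)
    (hL : Lw a T D) : Nat.card (FxR ρ T D) * Nat.card R ^ 3 ≤
      Nat.card {r : R | δ * r = 0} ^ 3 * Nat.card (H1R ρ T) := by
  classical
  have eZ : Z1 a T = H1R ρ T := by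
    ext y
    simp only [Z1, H1R, Co, Set.mem_setOf_eq, ha _ _]
  unfold Lw at hL
  rw [eZ] at hL
  obtain ⟨e⟩ := (Cardinal.le_def _ _).1 hL
  have one : ∀ g, a g = 1 → ∀ x : M2 R, (fm l x).comp (a g) - fm l x = 0 := fun g hg x => by
    rw [hg]
    exact sub_self _
  let F : FxR ρ T D × (Fin 3 → R) → Wt a T D := fun p =>
    ⟨(fun g => (fm l (xm p.2)).comp (a g) - fm l (xm p.2),
      fun q => if q ∈ T then fm l (xm p.2 + p.1.1 q) else 0),
      fun g h v => by
        show fm l (xm p.2) (a (g * h) v) - fm l (xm p.2) v =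
          fm l (xm p.2) (a g (a h v)) - fm l (xm p.2) (a h v) +
            (fm l (xm p.2) (a h v) - fm l (xm p.2) v)
        rw [map_mul]
        exact (sub_add_sub_cancel _ _ _).symm,
      ⟨a.ker, hM.opn, fun g hg => one g hg _⟩,
      fun q hq P hP g hg => one g (hM.unr q hq P hP g hg) _,
      fun q hq g hg v => by
        have n := p.1.2.2 q hq g hg
        have n' : mr ρ g⁻¹ * p.1.1 q * mr ρ g = p.1.1 q := by
          conv_lhs => rw [← n]
          rw [← mul_assoc, ← mul_assoc, mi, one_mul, mul_assoc, mi, mul_one]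
        have k := fm_ad l ha (p.1.1 q) v g
        rw [n'] at k
        simp only [if_pos hq, fm_add, k]
        show fm l (xm p.2) (a g v) - fm l (xm p.2) v = _
        ring,
      fun q hq => if_neg hq⟩
  have f1 : ∀ p p', F p = F p' → ∀ i, δ * (p.2 i - p'.2 i) = 0 := fun p p' h =>
    cen hδ fun g => fm_inj hl fun v => by
      have k : fm l (xm p.2) (a g v) - fm l (xm p.2) v =
          fm l (xm p'.2) (a g v) - fm l (xm p'.2) v :=
        congrArg (fun w : Wt a T D => w.1.1 g v) h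
      rw [← fm_ad l ha, fm_sub, fm_sub]
      linear_combination k
  have f2 : ∀ p p', F p = F p' → p.2 = p'.2 → p = p' := fun p p' h k =>
    Prod.ext (Subtype.ext (funext fun q => by
      by_cases hq : q ∈ T
      · have k' : (if q ∈ T then fm l (xm p.2 + p.1.1 q) else 0) =
            if q ∈ T then fm l (xm p'.2 + p'.1.1 q) else 0 :=
          congrArg (fun w : Wt a T D => w.1.2 q) h
        rw [if_pos hq, if_pos hq, k] at k'
        exact add_left_cancel (fm_inj hl fun v => by rw [k'])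
      · rw [p.1.2.1 q hq, p'.1.2.1 q hq])) k
  have sec : ∀ p, ∃ p', F p' = F p := fun p => ⟨p, rfl⟩
  let s : FxR ρ T D × (Fin 3 → R) → FxR ρ T D × (Fin 3 → R) := fun p =>
    Classical.choose (p := fun p' => F p' = F p) (sec p)
  have hs : ∀ p, F (s p) = F p := fun p => Classical.choose_spec (sec p)
  have hs' : ∀ p p', F p = F p' → s p = s p' := fun p p' h => by
    simp only [s, h]
  let G : FxR ρ T D × (Fin 3 → R) → (Fin 3 → {r : R | δ * r = 0}) × H1R ρ T := fun p =>
    (fun i => ⟨p.2 i - (s p).2 i, f1 _ _ (hs p).symm i⟩, e (F p))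
  have hG : Function.Injective G := fun p p' h => by
    have h2 : F p = F p' := e.injective (congrArg Prod.snd h)
    refine f2 p p' h2 (funext fun i => ?_)
    have h1 : p.2 i - (s p).2 i = p'.2 i - (s p').2 i :=
      congrArg (fun w : (Fin 3 → {r : R | δ * r = 0}) × H1R ρ T => (w.1 i).1) h
    rw [hs' p p' h2] at h1
    exact sub_left_injective h1
  haveI := hf.to_subtype
  have := Nat.card_le_card_of_injective G hG
  simpa only [Nat.card_prod, Nat.card_fun, Nat.card_eq_fintype_card, Fintype.card_fin] using this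

end ring

theorem ex_l {A : Type} [CommRing A] [IsDomain A] [IsDiscreteValuationRing A] [CharP A 2]
    {t : A} (ht : Irreducible t) (N : ℕ) :
    ∃ l : (A ⧸ tI t N) →+ ZMod 2, ∀ r, (∀ s, l (r * s) = 0) → r = 0 := by
  rcases Nat.eq_zero_or_pos N with rfl | hN
  · have : Subsingleton (A ⧸ tI t 0) := Ideal.Quotient.subsingleton_iff.2 (by simp [tI])
    exact ⟨0, fun r _ => Subsingleton.elim _ _⟩
  obtain ⟨s, hs0, hs⟩ := Vale.Agent.P022G.Sel.H44.soc_quot ht hN
  letI : Module (ZMod 2) (A ⧸ tI t N) := AddCommGroup.zmodModule (n := 2) fun x => by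
    rw [nsmul_eq_mul, Nat.cast_ofNat, two_q, zero_mul]
  haveI : Fact (Nat.Prime 2) := ⟨Nat.prime_two⟩
  obtain ⟨l, hl⟩ : ∃ l : Module.Dual (ZMod 2) (A ⧸ tI t N), l s ≠ 0 := by
    by_contra hc
    push Not at hc
    exact hs0 ((Module.forall_dual_apply_eq_zero_iff (ZMod 2) s).1 hc)
  refine ⟨l.toAddMonoidHom, fun r hr => ?_⟩
  by_contra h0
  obtain ⟨c, hc⟩ := hs r h0
  exact hl (hc ▸ hr c)

theorem tor {A : Type} [CommRing A] [IsDomain A] {t : A} (ht : t ≠ 0)
    (hf : Finite (A ⧸ tI t 1)) (u : Aˣ) (e N : ℕ) :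
    Nat.card {r : A ⧸ tI t N | Ideal.Quotient.mk (tI t N) (u * t ^ e) * r = 0} ≤
      Nat.card (A ⧸ tI t e) := by
  haveI := fin_tI hf e
  refine (card_le_range _ (fun b : A ⧸ tI t e =>
    Ideal.Quotient.mk (tI t N) (t ^ (N - e) * b.out)) fun r hr => ?_).2
  obtain ⟨x, rfl⟩ := Ideal.Quotient.mk_surjective r
  rw [Set.mem_setOf_eq, ← map_mul, Ideal.Quotient.eq_zero_iff_mem, Ideal.mem_span_singleton,
    mul_assoc, Units.dvd_mul_left] at hr
  obtain ⟨b, rfl⟩ : t ^ (N - e) ∣ x := by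
    by_cases h : N ≤ e
    · rw [Nat.sub_eq_zero_of_le h, pow_zero]
      exact one_dvd _
    · obtain ⟨k, rfl⟩ : ∃ k, N = e + k := ⟨N - e, by omega⟩
      rw [pow_add, mul_dvd_mul_iff_left (pow_ne_zero e ht)] at hr
      rwa [Nat.add_sub_cancel_left]
  refine ⟨Ideal.Quotient.mk _ b, ?_⟩
  have k : (Ideal.Quotient.mk (tI t e) b).out - b ∈ tI t e := by
    rw [← Ideal.Quotient.eq]
    exact Ideal.Quotient.mk_out _
  obtain ⟨c, hc⟩ := Ideal.mem_span_singleton.1 k
  simp only
  rw [Ideal.Quotient.eq, Ideal.mem_span_singleton, ← mul_sub, hc, ← mul_assoc, ← pow_add]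
  exact Dvd.dvd.mul_right (pow_dvd_pow t (by omega)) _

end P022G.Lb.Ad

namespace P022G.Lb

open Vale.Agent.P022
open Vale.Agent.P022D.Sel (M2 IsDec Ginf)
open P022G.Sel P022G.Sel.Bas

/-- **the lower bound for the adjoint representation** from the abstract lower bound -/
theorem ad {A : Type} [CommRing A] [IsDomain A] [IsDiscreteValuationRing A] [CharP A 2] {t : A}
    (ht : Irreducible t) (hf : Finite (A ⧸ tI t 1)) (ρ : GQ →* GL (Fin 2) A)
    (irr : ∃ δ : A, δ ≠ 0 ∧ ∀ Z : M2 A, δ • Z ∈ Submodule.span A (mr ρ '' (Ginf : Set GQ))) :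
    ∃ C : ℕ, ∀ (N : ℕ) (T : Finset ℕ) (D : ℕ → Set GQ) (a : Ac (M2 (A ⧸ tI t N))),
      IsAd (rd (tI t N) ρ) a → Md a T → (H1R (rd (tI t N) ρ) T).Finite → Lw a T D →
      Nat.card (FxR (rd (tI t N) ρ) T D) * Nat.card (A ⧸ tI t N) ^ 3 ≤
        C * Nat.card (H1R (rd (tI t N) ρ) T) := by
  obtain ⟨δ, h0, hδ⟩ := irr
  obtain ⟨e, u, rfl⟩ := IsDiscreteValuationRing.eq_unit_mul_pow_irreducible h0 ht
  refine ⟨Nat.card (A ⧸ tI t e) ^ 3, fun N T D a ha hM hH hL => ?_⟩
  haveI := fin_tI hf N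
  obtain ⟨l, hl⟩ := Ad.ex_l ht N
  refine (Ad.core hl (δ := Ideal.Quotient.mk (tI t N) (u * t ^ e)) (fun Z => ?_) ha hM hH
    hL).trans (Nat.mul_le_mul_right _ (Nat.pow_le_pow_left (Ad.tor ht.ne_zero hf u e N) 3))
  refine Submodule.span_mono ?_ (sp_rd hδ (tI t N) (H := ⊤) le_top Z)
  rintro _ ⟨g, rfl⟩
  exact ⟨g.1, rfl⟩

end P022G.Lb
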