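import Vale.Agent.P022G.Sel.Defs

/-!
# P022G, block Lb: the lower bound for cocycles by devissage (statements)
-/

set_option linter.all false

noncomputable section

namespace P022G.Lb

open NumberField Cardinal
open Vale.Agent.P022
open Vale.Agent.P027M.S (Inert)
open Vale.Agent.P022D.Sel (M2 IsDec Ginf)
open Vale.Agent.P022D.W (dec)
open Vale.Agent.P022E.GW (Ov Op Ur Z2 Cb Bg)
open P022G.Sel

/-- actions -/
abbrev Ac (V : Type) [AddCommGroup V] := GQ →* AddMonoid.End V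

/-- the dual group -/
abbrev Du (V : Type) [AddCommGroup V] := V →+ ZMod 2

section

variable {V : Type} [AddCommGroup V]

/-- a finite module killed by two, unramified outside `T` -/
structure Md (a : Ac V) (T : Finset ℕ) : Prop where
  fin : Finite V
  two : ∀ v : V, v + v = 0
  opn : IsOpen {g : GQ | a g = 1}
  unr : ∀ l ∉ T, ∀ P : Ideal (𝓞 Qb), Ov l P → ∀ g, Inert P g → a g = 1

/-- the cocycles which are unramified outside `T` -/
def Z1 (a : Ac V) (T : Finset ℕ) : Set (GQ → V) :=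
  {y | (∀ g h, y (g * h) = y g + a g (y h)) ∧ Op y ∧ Ur T y}

/-- the cocycles of the dual with local trivialisations -/
def Wt (a : Ac V) (T : Finset ℕ) (D : ℕ → Set GQ) : Set ((GQ → Du V) × (ℕ → Du V)) :=
  {w | (∀ g h v, w.1 (g * h) v = w.1 g (a h v) + w.1 h v) ∧ Op w.1 ∧ Ur T w.1 ∧
    (∀ l ∈ T, ∀ g ∈ D l, ∀ v, w.1 g v = w.2 l (a g v) - w.2 l v) ∧ ∀ l ∉ T, w.2 l = 0}

/-- the local invariants of the dual -/
def Fd (a : Ac V) (T : Finset ℕ) (D : ℕ → Set GQ) : Set (ℕ → Du V) :=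
  {n | (∀ l ∈ T, ∀ g ∈ D l, ∀ v, n l (a g v) = n l v) ∧ ∀ l ∉ T, n l = 0}

/-- the coboundaries of the dual -/
def Bd (a : Ac V) : Set (GQ → Du V) := {c | ∃ m : Du V, ∀ g v, c g v = m (a g v) - m v}

/-- the lower bound -/
def Lw (a : Ac V) (T : Finset ℕ) (D : ℕ → Set GQ) : Prop := #(Wt a T D) ≤ #(Z1 a T)

/-- a two cocycle which comes from a finite level unramified outside `T` -/
structure Ob (a : Ac V) (T : Finset ℕ) (U : Subgroup GQ) (O : GQ → GQ → V) : Prop where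
  opn : IsOpen (U : Set GQ)
  unr : ∀ l ∉ T, ∀ P : Ideal (𝓞 Qb), Ov l P → ∀ g, Inert P g → g ∈ U
  act : ∀ u ∈ U, a u = 1
  coc : ∀ g h k, a g (O h k) + O g (h * k) = O (g * h) k + O g h
  il : ∀ u ∈ U, ∀ g h, O (g * u) h = O g h ∧ O (u * g) h = O g h
  ir : ∀ u ∈ U, ∀ g h, O g (h * u) = O g h ∧ O g (u * h) = O g h
  one : ∀ g, O g 1 = 0 ∧ O 1 g = 0

/-- the local global principle, with local duality -/
def OB (a : Ac V) (T : Finset ℕ) (D : ℕ → Set GQ) : Prop :=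
  ∀ (U : Subgroup GQ) (O : GQ → GQ → V), Ob a T U O →
    (∀ l ∈ T, ∀ f : Du V, (∀ g ∈ D l, ∀ v, f (a g v) = f v) →
      Cb (Subgroup.closure (D l)) fun g h => f (O g h)) →
    ∃ b : GQ → V, Op b ∧ Ur T b ∧ ∀ g h, O g h = b g + a g (b h) - b (g * h)

/-- no class of the dual is trivial at all places -/
def SH (a : Ac V) (T : Finset ℕ) (D : ℕ → Set GQ) : Prop := ∀ w ∈ Wt a T D, w.1 ∈ Bd a

/-- the count -/
def CN (a : Ac V) (T : Finset ℕ) (D : ℕ → Set GQ) : Prop :=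
  #(Bd a) * #(Fd a T D) ≤ #(Z1 a T)

/-- a short exact sequence -/
structure Ex {S W : Type} [AddCommGroup S] [AddCommGroup W] (s : Ac S) (a : Ac V) (c : Ac W)
    (i : S →+ V) (p : V →+ W) : Prop where
  inj : Function.Injective i
  sur : Function.Surjective p
  ex : ∀ v, p v = 0 ↔ ∃ x, i x = v
  ei : ∀ g x, i (s g x) = a g (i x)
  ep : ∀ g v, p (a g v) = c g (p v)

end

/-- the lower bound goes up along extensions by `s` -/
def Stp {S : Type} [AddCommGroup S] (s : Ac S) (T : Finset ℕ) (D : ℕ → Set GQ) : Prop :=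
  ∀ (V W : Type) [AddCommGroup V] [AddCommGroup W] (a : Ac V) (c : Ac W) (i : S →+ V)
    (p : V →+ W), Md a T → Ex s a c i p → Lw c T D → Lw a T D

/-- places -/
structure Pl (T : Finset ℕ) (D : ℕ → Set GQ) : Prop where
  h0 : 0 ∈ T
  h2 : 2 ∈ T
  dec : ∀ l ∈ T, IsDec l (D l)

/-- the local invariants and the reciprocity law over the rational numbers -/
def Inv (T : Finset ℕ) (D : ℕ → Set GQ) : Prop :=
  ∃ inv : ℕ → (GQ → GQ → ZMod 2) →+ ZMod 2,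
    (∀ l ∈ T, ∀ z, Z2 (Subgroup.closure (D l)) z →
      (inv l z = 0 ↔ Cb (Subgroup.closure (D l)) z)) ∧
    ∀ z, Z2 ⊤ z → (∀ l ∉ T, ∀ P : Ideal (𝓞 Qb), Ov l P → Cb (dec P) z) → ∑ l ∈ T, inv l z = 0

/-- `s` is the action by the character `ψ` -/
def IsCh {F : Type} [Field F] (s : Ac F) (ψ : GQ → F) : Prop := ∀ g x, s g x = ψ g * x

/-- `s` is induced from the character `u` of the subgroup `H` of index two -/
structure IsIn {F : Type} [Field F] (s : Ac (F × F)) (H : Subgroup GQ) (u : GQ → F) : Prop where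
  idx : ∀ g h, g ∉ H → h ∉ H → g * h ∈ H
  out : ∃ g, g ∉ H
  u0 : ∀ g, u g ≠ 0
  on : ∀ g ∈ H, ∀ x y, s g (x, y) = (u g * x, (u g)⁻¹ * y)
  off : ∀ g, g ∉ H → ∀ x y, s g (x, y) = (u g * y, (u g)⁻¹ * x)
  ne : ∃ g ∈ H, u g ≠ 1

/-- the residual representation is diagonal on `H` and antidiagonal off `H` -/
structure Dh {R : Type} [CommRing R] (ρ : GQ →* GL (Fin 2) R) (H : Subgroup GQ) : Prop where
  idx : ∀ g h, g ∉ H → h ∉ H → g * h ∈ H
  dia : ∀ g ∈ H, mr ρ g 0 1 = 0 ∧ mr ρ g 1 0 = 0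
  ant : ∀ g, g ∉ H → mr ρ g 0 0 = 0 ∧ mr ρ g 1 1 = 0

/-! ### the rows -/

def INV : Prop := ∀ T D, Pl T D → Inv T D

def STEP : Prop := ∀ (S : Type) [AddCommGroup S] (s : Ac S) (T : Finset ℕ) (D : ℕ → Set GQ),
  Pl T D → OB s T D → SH s T D → CN s T D → Stp s T D

def EXT : Prop := ∀ (S V W : Type) [AddCommGroup S] [AddCommGroup V] [AddCommGroup W] (s : Ac S)
  (a : Ac V) (c : Ac W) (i : S →+ V) (p : V →+ W) (T : Finset ℕ) (D : ℕ → Set GQ),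
  Ex s a c i p → Stp s T D → Stp c T D → Stp a T D

def OBC : Prop := ∀ (F : Type) [Field F] [Finite F] [CharP F 2] (s : Ac F) (ψ : GQ → F)
  (T : Finset ℕ) (D : ℕ → Set GQ), Pl T D → Md s T → IsCh s ψ → Bg s.ker T → OB s T D

def SHC : Prop := ∀ (F : Type) [Field F] [Finite F] [CharP F 2] (s : Ac F) (ψ : GQ → F)
  (T : Finset ℕ) (D : ℕ → Set GQ), Pl T D → Md s T → IsCh s ψ → Bg s.ker T → SH s T D

def CNC : Prop := ∀ (F : Type) [Field F] [Finite F] [CharP F 2] (s : Ac F) (ψ : GQ → F)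
  (T : Finset ℕ) (D : ℕ → Set GQ), Pl T D → Md s T → IsCh s ψ → CN s T D

def OBI : Prop := ∀ (F : Type) [Field F] [Finite F] [CharP F 2] (s : Ac (F × F))
  (H : Subgroup GQ) (u : GQ → F) (T : Finset ℕ) (D : ℕ → Set GQ), Pl T D → Md s T →
  IsIn s H u → Bg s.ker T → OB s T D

def SHI : Prop := ∀ (F : Type) [Field F] [Finite F] [CharP F 2] (s : Ac (F × F))
  (H : Subgroup GQ) (u : GQ → F) (T : Finset ℕ) (D : ℕ → Set GQ), Pl T D → Md s T →
  IsIn s H u → Bg s.ker T → SH s T D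

def CNI : Prop := ∀ (F : Type) [Field F] [Finite F] [CharP F 2] (s : Ac (F × F))
  (H : Subgroup GQ) (u : GQ → F) (T : Finset ℕ) (D : ℕ → Set GQ), Pl T D → Md s T →
  IsIn s H u → CN s T D

/-- the adjoint action -/
def IsAd {R : Type} [CommRing R] (ρ : GQ →* GL (Fin 2) R) (a : Ac (M2 R)) : Prop :=
  ∀ g x, a g x = mr ρ g * x * mr ρ g⁻¹

/-- the residual adjoint module -/
def RES : Prop := ∀ (F : Type) [Field F] [Finite F] [CharP F 2] (ρ : GQ →* GL (Fin 2) F)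
  (H : Subgroup GQ) (a : Ac (M2 F)) (T : Finset ℕ), IsAd ρ a → IsOpen {g : GQ | ρ g = 1} →
  (∀ l ∉ T, ∀ P : Ideal (𝓞 Qb), Ov l P → ∀ g, Inert P g → ρ g = 1) →
  (∀ g, (mr ρ g).det = 1) → Dh ρ H → (∃ g, (mr ρ g).trace ≠ 0) →
  ∃ A₀ : Finset ℕ, (∀ l ∈ A₀, l.Prime) ∧ ∀ (T₁ : Finset ℕ) (D : ℕ → Set GQ), T ⊆ T₁ → A₀ ⊆ T₁ →
    Pl T₁ D → Stp a T₁ D

/-- **the lower bound** at a curve whose residual representation is in normal form -/
def LBD : Prop := ∀ (A : Type) [CommRing A] [IsDomain A] [IsDiscreteValuationRing A] [CharP A 2]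
  (t : A) (ρ : GQ →* GL (Fin 2) A) (H : Subgroup GQ) (T : Finset ℕ) (D : ℕ → Set GQ),
  Irreducible t → Finite (A ⧸ tI t 1) → Nice t ρ T D → Dh (rd (tI t 1) ρ) H →
  ∃ (T₀ : Finset ℕ) (D₀ : ℕ → Set GQ), T ⊆ T₀ ∧ (∀ l ∈ T, D₀ l = D l) ∧
    (∀ l ∈ T₀, IsDec l (D₀ l)) ∧
    ∀ (T₁ : Finset ℕ) (D₁ : ℕ → Set GQ), T₀ ⊆ T₁ → (∀ l ∈ T₀, D₁ l = D₀ l) →
      (∀ l ∈ T₁, IsDec l (D₁ l)) → ∃ C : ℕ, ∀ N : ℕ,
        Nat.card (FxR (rd (tI t N) ρ) T₁ D₁) * Nat.card (A ⧸ tI t N) ^ 3 ≤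
          C * Nat.card (H1R (rd (tI t N) ρ) T₁)

end P022G.Lb
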