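import Vale.Agent.P022G.Lb.Step
import Vale.Agent.P022G.Lb90.One0
import Vale.Agent.P022G.Obs.Sc2H62
import Vale.Agent.P022E.GW.TameH52

/-!
# P022G, block Lb: the reciprocity law over the rational numbers
-/

set_option linter.all false

noncomputable section

namespace P022G.Lb

namespace Rp

open NumberField
open Vale.Agent.P022
open Vale.Agent.P027M.S (Inert)
open Vale.Agent.P022D.Sel (IsDec)
open Vale.Agent.P022D.L2c (Hm Cob IsZ2 cup up)
open Vale.Agent.P022D.W (dec exists_phi inP_le_dec)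
open Vale.Agent.P022E.GW
open Vale.Agent.P022E.GW.Kc (kq rt rt_sq)
open Vale.Agent.P022G.Obs
open P022G.Lb90.Inv
open scoped Pointwise

theorem allp {z : GQ → GQ → ZMod 2} (hz : Z2 ⊤ z) {l : ℕ} {E E' : Subgroup GQ}
    (h : IsDec l (E : Set GQ)) (h' : IsDec l (E' : Set GQ)) (k : Cb E z) : Cb E' z := by
  obtain ⟨g, hg⟩ := Lb.dec_cj h h'
  have := cj (ZMod 2) ⊤ E E' g z trivial (fun x => by
    have := hg (g * x * g⁻¹)
    rw [show g⁻¹ * (g * x * g⁻¹) * g = x by group] at this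
    exact this.symm) hz (by rwa [top_inf_eq])
  rwa [top_inf_eq] at this

theorem loc {l : ℕ} {P : Ideal (𝓞 Qb)} (hP : Ov l P) (h2 : l ≠ 2) {z : GQ → GQ → ZMod 2}
    (hz : Z2 ⊤ z) : ∃ (τ φ : GQ) (u ψ : GQ → ZMod 2), Gn l P τ ∧ Fb l P φ ∧
      (Ch (dec P) u ∧ Ch (dec P) ψ ∧ (∀ g, Inert P g → u g = 0) ∧ u φ = 1 ∧
        Cb (dec P) (z - cup u ψ)) ∧ (ψ τ = 0 ↔ Cb (dec P) z) := by
  have hl := hP.1
  haveI := cpt P
  obtain ⟨φ, hφ⟩ := exists_phi hl hP.2.1 hP.2.2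
  obtain ⟨τ, hτ⟩ := Tg.ex_gn' hP
  obtain ⟨δ, V, hV, d1, d2, d3, d4⟩ := Unr.deg hl hP.2.1 hP.2.2 hφ (N := 2) two_ne_zero
  have hδ : Ch (dec P) δ := ⟨Unr.lc_of (dec P) V hV _ (fun g k => d1 _ g.2 _ k.2)
    fun v hv => d4 _ hv v.2, fun g k => d1 _ g.2 _ k.2⟩
  obtain ⟨b, hb, n⟩ := ((lcl hP).top.1 _ hδ fun e => by
    have := congrFun e ⟨φ, Vale.Agent.P022D.W.phi_mem hl hP.2.1 hφ⟩
    rw [d2] at this
    exact one_ne_zero this).1
  obtain ⟨a, ha⟩ := Gy.line (F := ZMod 2) (lcl hP) hδ hb n (y := rs (dec P) z)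
    (Gy.z2_le le_top hz)
  rw [Gy.ue_zmod, Gy.ue_zmod] at ha
  have eb : (fun x : dec P => Rc.ext0 b x) = b := funext fun x => Rc.ext0_of b x.2
  have hβ : Ch (dec P) (Rc.ext0 b) := by
    unfold Ch
    rwa [eb]
  have k : Rc.ext0 b τ = 1 := (Kc.z2 _).resolve_left fun k => by
    obtain ⟨U, hU, -, h0⟩ := Rc.near hb.1
    have b1 : b 1 = 0 := by
      have := hb.2 1 1
      rw [mul_one] at this
      exact left_eq_add.1 this
    have := Lb.cb_unr unrC (H := ⊤) isOpen_univ hP (Lb.ch_le inf_le_right hδ)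
      (Lb.ch_le inf_le_right hβ) (fun i _ hi => d3 i hi) fun i _ hi => by
        rw [Tg.mult hP h2 hτ (a := Rc.ext0 b)
          (fun s hs t ht => Lb.Ch.ad hβ (inP_le_dec hs) (inP_le_dec ht))
          ⟨U, hU, fun σ hσ hi => by
            rw [Rc.ext0_of b (inP_le_dec hi), h0 _ hσ, b1]⟩ hi, k, mul_zero]
    rw [top_inf_eq] at this
    refine n ?_
    rw [← eb]
    exact this
  refine ⟨τ, φ, δ, fun g => a * Rc.ext0 b g, hτ, hφ, ⟨hδ, Submodule.smul_mem _ a hβ, d3, d2, ?_⟩,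
    ?_⟩
  · have e : rs (dec P) (z - cup δ fun g => a * Rc.ext0 b g) =
        rs (dec P) z - a • cup (fun x : dec P => δ x) b := by
      funext x y
      simp only [rs, cup, Pi.sub_apply, Pi.smul_apply, smul_eq_mul, Rc.ext0_of b y.2]
      ring
    unfold Cb
    rw [e]
    exact ha
  · show a * Rc.ext0 b τ = 0 ↔ _
    rw [k, mul_one]
    refine ⟨fun e => by rwa [e, zero_smul, sub_zero] at ha, fun e => (Kc.z2 a).resolve_right
      fun a1 => n ?_⟩
    rw [a1, one_smul] at ha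
    have := sub_mem (show rs (dec P) z ∈ Cob (ZMod 2) (dec P) from e) ha
    rwa [sub_sub_cancel] at this

theorem m1c {c : GQ} (hc : IsConj c) : kq (-1) c = 1 := by
  obtain ⟨φ, hφ⟩ := hc
  have hw := rt_sq (-1 : Qb)
  refine (Kc.kq_one (by norm_num) hw (by rw [map_neg, map_one])).2 (φ.injective ?_)
  rw [hφ, map_neg]
  have e : φ (rt (-1)) ^ 2 = Complex.I ^ 2 := by
    rw [← map_pow, hw, map_neg, map_one, Complex.I_sq]
  rcases sq_eq_sq_iff_eq_or_eq_neg.1 e with h | h <;> rw [h]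
  · exact Complex.conj_I
  · rw [map_neg, Complex.conj_I]

theorem m1f {P : Ideal (𝓞 Qb)} (h : Ov 7 P) {φ : GQ} (hφ : Fb 7 P φ) : kq (-1) φ = 1 := by
  obtain ⟨X, hX⟩ : ∃ X : 𝓞 Qb, (X : Qb) = Kc.rt (-1) :=
    ⟨⟨Kc.rt (-1), IsIntegral.of_pow (n := 2) two_pos (by
      rw [Kc.rt_sq]; exact isIntegral_one.neg)⟩, rfl⟩
  have e1 : X ^ 2 = -1 := RingOfIntegers.ext (by
    show (X : Qb) ^ 2 = ((-1 : 𝓞 Qb) : Qb)
    rw [hX, Kc.rt_sq]; simp)
  refine (Kc.z2 _).resolve_left fun k => ?_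
  have e2 : φ • X = X := RingOfIntegers.ext (by
    show φ (X : Qb) = (X : Qb)
    rw [hX]
    exact (Kc.kq_zero (Kc.rt_sq _) φ).1 k)
  have e3 := P.mul_mem_left X (hφ X)
  rw [e2, show X * (X - X ^ 7) = -2 by
    linear_combination (2 - X ^ 2 + X ^ 4 - X ^ 6) * e1, neg_mem_iff] at e3
  exact S2.n2 h Nat.prime_two (by norm_num) (by exact_mod_cast e3)

/-- minus seven -/
def x7 : Qb := -1 * ((7 : ℕ) : Qb)

theorem fx7 (g : GQ) : g x7 = x7 := by rw [x7, map_mul, map_neg, map_one, map_natCast]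

theorem k7 (g : GQ) : kq x7 g = kq (-1) g + kq ((7 : ℕ) : Qb) g :=
  Kc.kq_mul (by norm_num) (by norm_num) (by rw [map_neg, map_one]) (map_natCast g 7)

theorem m1u {p : ℕ} {P : Ideal (𝓞 Qb)} (h : Ov p P) (n : p ≠ 2) {g : GQ} (hg : Inert P g) :
    kq (-1) g = 0 := by
  have := S2.u0 (ZMod 2) h n hg
  rwa [S2.u, Gy.ue_zmod] at this

theorem s7u {p : ℕ} {P : Ideal (𝓞 Qb)} (h : Ov p P) (n : p ≠ 2) (n7 : p ≠ 7) {g : GQ}
    (hg : Inert P g) : kq x7 g = 0 := by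
  have e : (((7 : ℕ) : 𝓞 Qb) : Qb) = (7 : ℕ) := map_natCast (algebraMap (𝓞 Qb) Qb) 7
  have := Kc.kq_unit (c := ((7 : ℕ) : 𝓞 Qb)) h.2.1 (by exact_mod_cast S2.n2 h Nat.prime_two n)
    (S2.n2 h (by norm_num) n7) hg (by rw [e, map_natCast])
  rw [e] at this
  rw [k7, this, m1u h n hg, add_zero]

theorem s72 {P : Ideal (𝓞 Qb)} (h : Ov 2 P) {g : GQ} (hg : g ∈ dec P) : kq x7 g = 0 := by
  obtain ⟨-, hP, hl⟩ := h
  have hw := rt_sq x7
  have hk : x7 = -7 := by rw [x7]; norm_num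
  refine (Kc.z2 _).resolve_right fun e => ?_
  have e := (Kc.kq_one (by rw [hk]; norm_num) hw (fx7 g)).1 e
  have z1 : ((rt x7 - 1) / 2 : Qb) ^ 2 + (rt x7 - 1) / 2 + 2 = 0 := by
    linear_combination (1 / 4 : Qb) * hw + (1 / 4 : Qb) * hk
  obtain ⟨Z, hZ⟩ : ∃ Z : 𝓞 Qb, (Z : Qb) = (rt x7 - 1) / 2 := by
    refine ⟨⟨(rt x7 - 1) / 2, Polynomial.X ^ 2 + (Polynomial.X + Polynomial.C (2 : ℤ)),
      ?_, ?_⟩, rfl⟩
    · monicity!
    · rw [Polynomial.eval₂_add, Polynomial.eval₂_add, Polynomial.eval₂_X_pow,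
        Polynomial.eval₂_X, Polynomial.eval₂_C, eq_intCast]
      push_cast
      linear_combination z1
  have e1 : Z * (Z + 1) = -2 := RingOfIntegers.ext (by
    show (Z : Qb) * ((Z : Qb) + 1) = -2
    rw [hZ]
    linear_combination z1)
  have e2 : g • Z = -(Z + 1) := RingOfIntegers.ext (by
    show g (Z : Qb) = -((Z : Qb) + 1)
    rw [hZ, map_div₀, map_sub, e, map_one, map_ofNat]
    ring)
  have e3 : Z + 1 ∈ P ↔ Z ∈ P := by rw [← hg Z, e2, neg_mem_iff]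
  have e4 : Z * (Z + 1) ∈ P := e1 ▸ P.neg_mem (by exact_mod_cast hl)
  have e5 : Z ∈ P := (hP.mem_or_mem e4).elim id e3.1
  have := P.sub_mem (e3.2 e5) e5
  rw [add_sub_cancel_left] at this
  exact hP.ne_top ((Ideal.eq_top_iff_one _).2 this)

theorem c1 (E : Subgroup GQ) : Ch E (kq (-1)) := One.ch_kq E fun g _ => by rw [map_neg, map_one]

theorem c7 (E : Subgroup GQ) : Ch E (kq x7) := One.ch_kq E fun g _ => fx7 g

/-- the symbol of minus one and minus seven -/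
def s1 : GQ → GQ → ZMod 2 := cup (kq (-1)) (kq x7)

/-- the symbol of minus one and three -/
def s2 : GQ → GQ → ZMod 2 := cup (S2.u (ZMod 2)) (S2.v (ZMod 2))

theorem z1 : Z2 ⊤ s1 := Lb.z2_cup (c1 _) (c7 _)

theorem z2' : Z2 ⊤ s2 := Lb.z2_cup (S2.chu _ _) (S2.chv _ _)

theorem cb0 (E : Subgroup GQ) : Cb E (0 : GQ → GQ → ZMod 2) := zero_mem (Cob (ZMod 2) _)

theorem s1a {p : ℕ} {P : Ideal (𝓞 Qb)} (h : Ov p P) (n : p ≠ 7) : Cb (dec P) s1 := by
  by_cases p2 : p = 2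
  · subst p2
    exact One.cb_congr (cb0 _) fun x _ y hy => by
      show kq (-1) x * kq x7 y = 0
      rw [s72 h hy, mul_zero]
  · have := Lb.cb_unr unrC (H := ⊤) isOpen_univ h (c1 _) (c7 _) (fun i _ hi => m1u h p2 hi)
      fun i _ hi => s7u h p2 n hi
    rwa [top_inf_eq] at this

theorem s1b {P : Ideal (𝓞 Qb)} (h : Ov 7 P) : ¬ Cb (dec P) s1 := fun k => by
  obtain ⟨φ, hφ⟩ := exists_phi h.1 h.2.1 h.2.2
  obtain ⟨τ, hτ⟩ := Tg.ex_gn' h
  have := H52.tameC (ZMod 2) ⊤ 7 P _ _ isOpen_univ h (by norm_num) (c1 _) (c7 _)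
    (fun i _ hi => m1u h (by norm_num) hi)
    ⟨φ, ⟨trivial, Vale.Agent.P022D.W.phi_mem h.1 h.2.1 hφ⟩, by rw [m1f h hφ]; exact one_ne_zero⟩
    (One.cb_mono inf_le_right k) τ trivial hτ.1
  rw [k7, m1u h (by norm_num) hτ.1, (Kc.kq_one (x := ((7 : ℕ) : Qb)) (by norm_num) (rt_sq _)
    (map_natCast τ 7)).2 (hτ.2 _ (rt_sq _)), zero_add] at this
  exact one_ne_zero this

theorem s1c {E : Subgroup GQ} (h : IsDec 0 (E : Set GQ)) : ¬ Cb E s1 := by
  rintro ⟨w, -, hw⟩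
  obtain ⟨-, c, hc, e⟩ | ⟨lp, -⟩ := h
  swap
  · exact Nat.not_prime_zero lp
  have m : ∀ x, x ∈ E ↔ x = 1 ∨ x = c := fun x => by
    rw [← SetLike.mem_coe, e]; rfl
  have mc : c ∈ E := (m c).2 (Or.inr rfl)
  have cc : c * c = 1 := by
    rcases (m _).1 (E.mul_mem mc mc) with k | k
    · exact k
    · rw [mul_eq_left.1 k, mul_one]
  have a1 := hw 1 1
  have a2 := hw ⟨c, mc⟩ ⟨c, mc⟩
  rw [show (⟨c, mc⟩ * ⟨c, mc⟩ : E) = 1 from Subtype.ext cc] at a2
  rw [mul_one] at a1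
  change w 1 = w 1 + w 1 + kq (-1) 1 * kq x7 1 at a1
  change w 1 = w _ + w _ + kq (-1) c * kq x7 c at a2
  rw [Kc.kq_id, zero_mul, CharTwo.add_self_eq_zero, add_zero] at a1
  rw [k7, m1c hc, OneP.inf 7 hc, a1, CharTwo.add_self_eq_zero] at a2
  revert a2
  decide

theorem s2a {p : ℕ} {P : Ideal (𝓞 Qb)} (h : Ov p P) (n : p ≠ 2) (n3 : p ≠ 3) : Cb (dec P) s2 := by
  have := Lb.cb_unr unrC (H := ⊤) isOpen_univ h (S2.chu (ZMod 2) _) (S2.chv _ _)
    (fun i _ hi => S2.u0 _ h n hi) fun i _ hi => S2.v0 _ h n n3 hi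
  rwa [top_inf_eq] at this

theorem s2b {P : Ideal (𝓞 Qb)} (h : Ov 3 P) : ¬ Cb (dec P) s2 := fun k => by
  obtain ⟨φ, hφ⟩ := exists_phi h.1 h.2.1 h.2.2
  obtain ⟨τ, hτ⟩ := Tg.ex_gn' h
  have := H52.tameC (ZMod 2) ⊤ 3 P _ _ isOpen_univ h (by norm_num) (S2.chu _ _) (S2.chv _ _)
    (fun i _ hi => S2.u0 _ h (by norm_num) hi)
    ⟨φ, ⟨trivial, Vale.Agent.P022D.W.phi_mem h.1 h.2.1 hφ⟩, by
      rw [S2.u1 _ h hφ]; exact one_ne_zero⟩
    (One.cb_mono inf_le_right k) τ trivial hτ.1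
  rw [S2.v1 _ hτ] at this
  exact one_ne_zero this

theorem s2c {E : Subgroup GQ} (h : IsDec 0 (E : Set GQ)) : Cb E s2 :=
  One.cb_congr (cb0 _) fun x _ y hy => by
    have : S2.v (ZMod 2) y = 0 := by
      obtain ⟨-, c, hc, e⟩ | ⟨l0, -⟩ := h
      · have m : y ∈ ({1, c} : Set GQ) := e ▸ hy
        show up (ZMod 2) (kq _ y) = 0
        rcases m with rfl | rfl
        · rw [Kc.kq_id, map_zero]
        · rw [OneP.inf 3 hc, map_zero]
      · exact absurd l0 Nat.not_prime_zero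
    show S2.u (ZMod 2) x * S2.v (ZMod 2) y = 0
    rw [this, mul_zero]

theorem s2d {E : Subgroup GQ} (h : IsDec 2 (E : Set GQ)) : ¬ Cb E s2 := fun k =>
  one_ne_zero (S2.key (F := ZMod 2) (z := 0) (Gy.cob_z2 (cb0 _)) (fun _ _ _ _ => cb0 _) 1
    fun D hD => One.cb_mono inf_le_right (One.cb_sub (cb0 _)
      (Submodule.smul_mem (Cob (ZMod 2) _) 1 (allp z2' h hD k))))

/-- **reciprocity** -/
theorem inv37 {T : Finset ℕ} {D : ℕ → Set GQ} (hP : Pl T D) (h3 : 3 ∈ T) (h7 : 7 ∈ T) :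
    Inv T D := by
  classical
  have hE : ∀ l ∈ T, IsDec l (Subgroup.closure (D l) : Set GQ) := fun l hl => by
    rw [show (Subgroup.closure (D l) : Set GQ) = D l from Set.ext (H35.mem_cl (hP.dec l hl))]
    exact hP.dec l hl
  have ex : ∀ l, ∃ I : (GQ → GQ → ZMod 2) →+ ZMod 2, l ∈ T → ∀ z,
      Z2 (Subgroup.closure (D l)) z → (I z = 0 ↔ Cb (Subgroup.closure (D l)) z) := fun l => by
    by_cases hl : l ∈ T
    · obtain ⟨I, a, b⟩ := Lb90.invC (ZMod 2) l _ (hE l hl)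
      exact ⟨I.toAddMonoidHom, fun _ z hz => ⟨b z hz, a z⟩⟩
    · exact ⟨0, fun k => absurd k hl⟩
  choose inv hI using ex
  have hI' : ∀ l ∈ T, ∀ z, Z2 ⊤ z → (inv l z = 0 ↔ Cb (Subgroup.closure (D l)) z) :=
    fun l hl z hz => hI l hl z (One.z2_mono le_top hz)
  have core : ∀ z, Z2 ⊤ z → (∀ l ∉ T, ∀ P : Ideal (𝓞 Qb), Ov l P → Cb (dec P) z) →
      inv 0 z = 0 → inv 2 z = 0 → ∑ l ∈ T, inv l z = 0 := fun z hz ho i0 i2 => by
    have m : ∀ i : T.filter fun l => l ≠ 0 ∧ l ≠ 2, i.1 ∈ T ∧ i.1 ≠ 0 ∧ i.1 ≠ 2 :=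
      fun i => Finset.mem_filter.1 i.2
    choose P p1 p2 using fun i => of_dec (m i).2.1 (hE _ (m i).1)
    choose τ φ u ψ q1 q2 q3 q4 using fun i => loc (p1 i) (m i).2.2 hz
    have key := oneC (ZMod 2) ⊤ z _ (fun i => i.1) P τ φ u ψ isOpen_univ hz
      (fun i => ⟨p1 i, (m i).2.2, q1 i, q2 i, le_top⟩)
      (fun i j g _ e => Subtype.ext (One.two_pr (p1 i).1 (p1 j).1 (p1 j).2.1 (by
        have := (e _).1 (p1 i).2.2
        rwa [show g • ((i.1 : ℕ) : 𝓞 Qb) = i.1 from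
          map_natCast (MulSemiringAction.toRingHom GQ (𝓞 Qb) g) _] at this) (p1 j).2.2))
      q3 (fun E h => One.cb_mono inf_le_right
        (allp hz (hE 0 hP.h0) h ((hI' 0 hP.h0 z hz).1 i0)))
      (fun p Q hQ n => One.cb_mono inf_le_right (by
        by_cases hp : p ∈ T
        · by_cases p2 : p = 2
          · subst p2
            exact allp hz (hE 2 hP.h2) (is_dec hQ) ((hI' 2 hP.h2 z hz).1 i2)
          · obtain ⟨t, ht⟩ := Tg.trans (p1 ⟨p, Finset.mem_filter.2 ⟨hp, hQ.1.ne_zero, p2⟩⟩) hQ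
            refine absurd (fun x => ?_)
              (n ⟨p, Finset.mem_filter.2 ⟨hp, hQ.1.ne_zero, p2⟩⟩ t trivial)
            exact Ideal.smul_mem_pointwise_smul_iff.symm.trans (SetLike.ext_iff.1 ht _).symm
        · exact ho p hp Q hQ))
    rw [← Finset.sum_subset (Finset.filter_subset (fun l => l ≠ 0 ∧ l ≠ 2) T) fun l hl n => ?_,
      ← Finset.sum_coe_sort, ← key]
    · refine Finset.sum_congr rfl fun i _ => Kc.z2_ext ?_
      rw [q4 i, hI' _ (m i).1 z hz, p2 i]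
    · by_cases l0 : l = 0
      · rw [l0, i0]
      · by_cases l2 : l = 2
        · rw [l2, i2]
        · exact absurd (Finset.mem_filter.2 ⟨hl, l0, l2⟩) n
  have two : ∀ z, Z2 ⊤ z → ∀ p ∈ T, ∀ q ∈ T, p ≠ q → ¬ Cb (Subgroup.closure (D p)) z →
      ¬ Cb (Subgroup.closure (D q)) z →
      (∀ l ∈ T, l ≠ p → l ≠ q → Cb (Subgroup.closure (D l)) z) → ∑ l ∈ T, inv l z = 0 :=
    fun z hz p hp q hq n a b c => by
      rw [Finset.sum_eq_add_of_mem p q hp hq n fun l hl k => (hI' l hl z hz).2 (c l hl k.1 k.2),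
        (Kc.z2 _).resolve_left fun e => a ((hI' p hp z hz).1 e),
        (Kc.z2 _).resolve_left fun e => b ((hI' q hq z hz).1 e)]
      rfl
  have n1 : ∑ l ∈ T, inv l s1 = 0 := two s1 z1 0 hP.h0 7 h7 (by norm_num) (s1c (hE 0 hP.h0))
    (by
      obtain ⟨P, a, b⟩ := of_dec (by norm_num) (hE 7 h7)
      rw [b]; exact s1b a) fun l hl l0 l7 => by
      obtain ⟨P, a, b⟩ := of_dec l0 (hE l hl)
      rw [b]; exact s1a a l7
  have n2 : ∑ l ∈ T, inv l s2 = 0 := two s2 z2' 2 hP.h2 3 h3 (by norm_num) (s2d (hE 2 hP.h2))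
    (by
      obtain ⟨P, a, b⟩ := of_dec (by norm_num) (hE 3 h3)
      rw [b]; exact s2b a) fun l hl l2 l3 => by
      by_cases l0 : l = 0
      · subst l0; exact s2c (hE 0 hl)
      · obtain ⟨P, a, b⟩ := of_dec l0 (hE l hl)
        rw [b]; exact s2a a l2 l3
  have st2 : ∀ z, Z2 ⊤ z → (∀ l ∉ T, ∀ P : Ideal (𝓞 Qb), Ov l P → Cb (dec P) z) →
      inv 0 z = 0 → ∑ l ∈ T, inv l z = 0 := fun z hz ho i0 => by
    rcases Kc.z2 (inv 2 z) with k | k
    · exact core z hz ho i0 k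
    · have := core (z - s2) (Gy.z2_sub hz z2') (fun l hl P h => One.cb_sub (ho l hl P h)
        (s2a h (fun e => hl (e ▸ hP.h2)) fun e => hl (e ▸ h3)))
        (by rw [map_sub, i0, (hI' 0 hP.h0 _ z2').2 (s2c (hE 0 hP.h0)), sub_zero])
        (by rw [map_sub, k, (Kc.z2 _).resolve_left fun e =>
          s2d (hE 2 hP.h2) ((hI' 2 hP.h2 _ z2').1 e), sub_self])
      simp only [map_sub, Finset.sum_sub_distrib, n2, sub_zero] at this
      exact this
  refine ⟨inv, hI, fun z hz ho => ?_⟩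
  rcases Kc.z2 (inv 0 z) with k | k
  · exact st2 z hz ho k
  · have := st2 (z - s1) (Gy.z2_sub hz z1) (fun l hl P h => One.cb_sub (ho l hl P h)
      (s1a h fun e => hl (e ▸ h7)))
      (by rw [map_sub, k, (Kc.z2 _).resolve_left fun e =>
        s1c (hE 0 hP.h0) ((hI' 0 hP.h0 _ z1).1 e), sub_self])
    simp only [map_sub, Finset.sum_sub_distrib, n1, sub_zero] at this
    exact this

end Rp

namespace St

open NumberField Cardinal
open Vale.Agent.P022
open Vale.Agent.P027M.S (Inert)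
open Vale.Agent.P022D.Sel (M2 IsDec Ginf)
open Vale.Agent.P022D.W (dec)
open Vale.Agent.P022D.L2c (IsZ2 Cob)
open Vale.Agent.P022E.GW

/-- the step of the devissage for one set of places -/
theorem stp {S : Type} [AddCommGroup S] {s : Ac S} {T : Finset ℕ} {D : ℕ → Set GQ} (hP : Pl T D)
    (hI : Inv T D) (hO : OB s T D) (hS : SH s T D) (hC : CN s T D) : Stp s T D := by
  intro V W _ _ a c i p M E hW
  obtain ⟨inv, h1, h2⟩ := hI
  obtain ⟨r, σ, P⟩ := ex_sp M.two E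
  haveI := M.fin
  haveI : Finite S := Finite.of_injective i E.inj
  haveI := fin_fg s T D
  have a1 : #(f1 a T D i).range ≤ #(Bd s) := by
    refine Cardinal.mk_le_mk_of_subset ?_
    rintro _ ⟨w, rfl⟩
    refine hS (fun g => (w.1.1 g).comp i, fun l => (w.1.2 l).comp i) ⟨fun g h x => ?_,
      op_map w.2.2.1 (fun f => f.comp i) rfl, ur_map w.2.2.2.1 (fun f => f.comp i) rfl,
      fun l hl g hg x => ?_,
      fun l hl => congrArg (fun f : Du V => f.comp i) (w.2.2.2.2.2 l hl)⟩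
    · show w.1.1 (g * h) (i x) = w.1.1 g (i (s h x)) + w.1.1 h (i x)
      rw [w.2.1, E.ei]
    · show w.1.1 g (i x) = w.1.2 l (i (s g x)) - w.1.2 l (i x)
      rw [w.2.2.2.2.1 l hl g hg, E.ei]
  have k2 : ∀ w : (f2 E T D).ker, ∀ l x, w.1.1.1.2 l (i x) = 0 := fun w l x =>
    DFunLike.congr_fun (congrFun (congrArg Subtype.val w.2) l) x
  have cs : ∀ {f : Du V}, (∀ x, f (i x) = 0) → ∀ g x, f (σ (c g x)) = f (a g (σ x)) :=
    fun h g x => by rw [← kil P h (a g (σ x)), E.ep, P.ps]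
  have a2 : #(f2 E T D).ker ≤ #(Wt c T D) := by
    refine Cardinal.mk_le_of_injective (f := fun w =>
      ⟨(fun g => (w.1.1.1.1 g).comp σ, fun l => (w.1.1.1.2 l).comp σ), fun g h x => ?_,
        op_map w.1.1.2.2.1 (fun f => f.comp σ) rfl, ur_map w.1.1.2.2.2.1 (fun f => f.comp σ) rfl,
        fun l hl g hg x => ?_, fun l hl => congrArg (fun f : Du V => f.comp σ)
          (w.1.1.2.2.2.2.2 l hl)⟩) fun w w' e => ?_
    · show w.1.1.1.1 (g * h) (σ x) = w.1.1.1.1 g (σ (c h x)) + w.1.1.1.1 h (σ x)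
      rw [w.1.1.2.1, cs (f1_ker w.1.2 g)]
    · show w.1.1.1.1 g (σ x) = w.1.1.1.2 l (σ (c g x)) - w.1.1.1.2 l (σ x)
      rw [w.1.1.2.2.2.2.1 l hl g hg, cs (k2 w l)]
    · have e := congrArg Subtype.val e
      refine Subtype.ext (Subtype.ext (Subtype.ext (Prod.ext (funext fun g => ?_)
        (funext fun l => ?_)))) <;> refine AddMonoidHom.ext fun v => ?_
      · rw [← kil P (f1_ker w.1.2 g), ← kil P (f1_ker w'.1.2 g) v]
        exact DFunLike.congr_fun (congrFun (congrArg Prod.fst e) g) (p v)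
      · rw [← kil P (k2 w l), ← kil P (k2 w' l) v]
        exact DFunLike.congr_fun (congrFun (congrArg Prod.snd e) l) (p v)
  have a3 : #(Z1 s T) ≤ #(g1 E T).ker :=
    Cardinal.mk_le_of_injective (f := fun x => ⟨⟨fun g => i (x.1 g),
      fun g h => by
        show i (x.1 (g * h)) = i (x.1 g) + a g (i (x.1 h))
        rw [x.2.1, map_add, E.ei], op_map x.2.2.1 i i.map_zero,
      ur_map x.2.2.2 i i.map_zero⟩, Subtype.ext (funext fun g => (E.ex _).2 ⟨_, rfl⟩)⟩)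
      fun x x' e => Subtype.ext (funext fun g =>
        E.inj (congrFun (congrArg Subtype.val (congrArg Subtype.val e)) g))
  have a4 : #(g2 inv s a c r σ T D).ker ≤ #(g1 E T).range := by
    refine Cardinal.mk_le_mk_of_subset fun y hy => ?_
    have o := ob_ob M E P y.2
    obtain ⟨b, b1, b2, b3⟩ := hO _ _ o fun l hl f hf => by
      refine (h1 l hl _ (ob_z2 o f fun g hg => hf g ((H35.mem_cl (hP.dec l hl) g).1 hg))).1 ?_
      have := DFunLike.congr_fun (show g2 inv s a c r σ T D y = 0 from hy)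
        ⟨Pi.single l f, fun l' _ g hg v => by
          by_cases k : l' = l
          · subst k
            rw [Pi.single_eq_same]; exact hf g hg v
          · rw [Pi.single_eq_of_ne k]; rfl,
          fun l' hl' => Pi.single_eq_of_ne (fun k : l' = l => hl' (by rw [k]; exact hl)) _⟩
      refine Eq.trans ?_ this
      show _ = ∑ l' ∈ T, inv l' fun g h => Pi.single (M := fun _ => Du S) l f l' _
      rw [Finset.sum_eq_single_of_mem l hl fun l' _ k => by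
        rw [Pi.single_eq_of_ne k]; exact map_zero _, Pi.single_eq_same]
    refine ⟨⟨(fun g => σ (y.1 g)) + fun g => -i (b g), fun g h => ?_,
      (op_map y.2.2.1 σ σ.map_zero).add (op_map b1 (fun x => -i x) (by simp)),
      ur_add (ur_map y.2.2.2 σ σ.map_zero) (ur_map b2 (fun x => -i x) (by simp))⟩,
      Subtype.ext (funext fun g => ?_)⟩
    · have := i_ob E P y.2 g h
      rw [b3, map_sub, map_add, E.ei] at this
      simp only [Pi.add_apply, map_add, map_neg]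
      linear_combination (norm := abel1) this
    · show p (σ (y.1 g) + -i (b g)) = y.1 g
      rw [map_add, map_neg, P.ps, (E.ex _).2 ⟨_, rfl⟩, neg_zero, add_zero]
  have a5 : #(f2 E T D).range * #(g2 inv s a c r σ T D).range ≤ #(Fd s T D) := by
    refine card_orth (X := FG s T D) (fun f => Subtype.ext (funext fun l =>
      AddMonoidHom.ext fun x => CharTwo.add_self_eq_zero _)) _ _ ?_
    rintro _ ⟨w, rfl⟩ _ ⟨y, rfl⟩
    exact orth hP M E P h1 h2 w.1.2 (f1_ker w.2) y.2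
  calc #(Wt a T D) = #(f1 a T D i).range * (#(f2 E T D).range * #(f2 E T D).ker) := by
        rw [← card_hom, ← card_hom]; rfl
    _ ≤ #(Bd s) * (#(f2 E T D).range *
          (#(g2 inv s a c r σ T D).range * #(g2 inv s a c r σ T D).ker)) := by
        rw [← card_hom (g2 inv s a c r σ T D)]
        exact mul_le_mul' a1 (mul_le_mul' le_rfl (a2.trans hW))
    _ ≤ #(Bd s) * #(Fd s T D) * #(g1 E T).range := by
        rw [mul_assoc, ← mul_assoc (#(f2 E T D).range)]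
        exact mul_le_mul' le_rfl (mul_le_mul' a5 a4)
    _ ≤ #(g1 E T).range * #(g1 E T).ker := by
        rw [mul_comm]
        exact mul_le_mul' le_rfl (hC.trans a3)
    _ = #(Z1 a T) := (card_hom _).symm

end St

end P022G.Lb
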