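import Vale.Agent.P022G.Lb.Defs
import Vale.Agent.P022E.GW.ObsH35
import Vale.Agent.P022E.GW.UnrC

/-!
# P022G, block Lb: one step of the devissage
-/

set_option linter.all false

noncomputable section

namespace P022G.Lb

namespace St

open NumberField Cardinal
open Vale.Agent.P022
open Vale.Agent.P027M.S (Inert)
open Vale.Agent.P022D.Sel (M2 IsDec Ginf)
open Vale.Agent.P022D.W (dec)
open Vale.Agent.P022D.L2c (IsZ2 Cob)
open Vale.Agent.P022E.GW

theorem lc {M : Type} {c : GQ → M} (U : Subgroup GQ) (hU : IsOpen (U : Set GQ))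
    (h : ∀ g, ∀ u ∈ U, c (g * u) = c g) : IsLocallyConstant c := by
  refine (IsLocallyConstant.iff_exists_open _).2 fun g =>
    ⟨(fun u => g⁻¹ * u) ⁻¹' U, hU.preimage (by fun_prop), by simp, fun y hy => ?_⟩
  rw [← h g _ hy, mul_inv_cancel_left]

theorem card_hom {X Y : Type} [AddCommGroup X] [AddCommGroup Y] (φ : X →+ Y) :
    #X = #φ.range * #φ.ker := by
  rw [Cardinal.mk_congr (AddSubgroup.addGroupEquivQuotientProdAddSubgroup (s := φ.ker)),
    Cardinal.mk_prod, Cardinal.lift_id, Cardinal.lift_id,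
    Cardinal.mk_congr (QuotientAddGroup.quotientKerEquivRange φ).toEquiv]

theorem card_du {X : Type} [AddCommGroup X] [Finite X] (h2 : ∀ x : X, x + x = 0) :
    #(Du X) ≤ #X := by
  letI : Module (ZMod 2) X := AddCommGroup.zmodModule (n := 2) fun x => by rw [two_nsmul, h2]
  let e := (Module.Free.chooseBasis (ZMod 2) X).toDualEquiv
  exact Cardinal.mk_le_of_injective (f := fun f => e.symm (f.toZModLinearMap 2)) fun f g h =>
    AddMonoidHom.toZModLinearMap_injective 2 (e.symm.injective h)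

theorem card_orth {X : Type} [AddCommGroup X] [Finite X] (h2 : ∀ x : X, x + x = 0)
    (A : AddSubgroup X) (B : AddSubgroup (Du X)) (h : ∀ x ∈ A, ∀ f ∈ B, f x = 0) :
    #A * #B ≤ #X := by
  have k : #B ≤ #(X ⧸ A) := by
    refine le_trans (Cardinal.mk_le_of_injective
      (f := fun f : B => QuotientAddGroup.lift A f.1 fun x hx => h x hx f.1 f.2) fun f g e => ?_)
      (card_du fun x => ?_)
    · exact Subtype.ext (AddMonoidHom.ext fun x => DFunLike.congr_fun e (QuotientAddGroup.mk x))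
    · obtain ⟨x, rfl⟩ := QuotientAddGroup.mk_surjective x
      rw [← QuotientAddGroup.mk_add, h2, QuotientAddGroup.mk_zero]
  rw [Cardinal.mk_congr (AddSubgroup.addGroupEquivQuotientProdAddSubgroup (s := A)),
    Cardinal.mk_prod, Cardinal.lift_id, Cardinal.lift_id, mul_comm]
  exact mul_le_mul' k le_rfl

theorem op_neg {M : Type} [AddGroup M] {c : GQ → M} (h : Op c) : Op (-c) :=
  h.imp fun U k => ⟨k.1, fun σ hσ => by rw [Pi.neg_apply, k.2 σ hσ, neg_zero]⟩

theorem op_zero {M : Type} [Zero M] : Op (0 : GQ → M) := ⟨⊤, isOpen_univ, fun _ _ => rfl⟩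

theorem op_map {M N : Type} [Zero M] [Zero N] {c : GQ → M} (h : Op c) (φ : M → N) (h0 : φ 0 = 0) :
    Op fun g => φ (c g) := h.imp fun U k => ⟨k.1, fun σ hσ => (congrArg φ (k.2 σ hσ)).trans h0⟩

theorem ur_map {M N : Type} [Zero M] [Zero N] {T : Finset ℕ} {c : GQ → M} (h : Ur T c)
    (φ : M → N) (h0 : φ 0 = 0) : Ur T fun g => φ (c g) :=
  fun l hl P hP g hg => (congrArg φ (h l hl P hP g hg)).trans h0

theorem ur_add {M : Type} [AddMonoid M] {T : Finset ℕ} {b c : GQ → M} (h : Ur T b) (k : Ur T c) :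
    Ur T (b + c) := fun l hl P hP g hg => by
  rw [Pi.add_apply, h l hl P hP g hg, k l hl P hP g hg, add_zero]

variable {V : Type} [AddCommGroup V]

/-- the group of cocycles -/
def ZG (a : Ac V) (T : Finset ℕ) : AddSubgroup (GQ → V) where
  carrier := Z1 a T
  add_mem' {x y} hx hy := ⟨fun g h => by
    simp only [Pi.add_apply, hx.1 g h, hy.1 g h, map_add]; abel, hx.2.1.add hy.2.1,
    ur_add hx.2.2 hy.2.2⟩
  zero_mem' := ⟨fun _ _ => by simp, op_zero, fun _ _ _ _ _ _ => rfl⟩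
  neg_mem' {x} hx := ⟨fun g h => by
    simp only [Pi.neg_apply, hx.1 g h, map_neg]; abel, op_neg hx.2.1,
    ur_map hx.2.2 (fun v => -v) neg_zero⟩

/-- the group of locally trivialised cocycles -/
def WG (a : Ac V) (T : Finset ℕ) (D : ℕ → Set GQ) :
    AddSubgroup ((GQ → Du V) × (ℕ → Du V)) where
  carrier := Wt a T D
  add_mem' {x y} hx hy := ⟨fun g h v => by
      simp only [Prod.fst_add, Pi.add_apply, AddMonoidHom.add_apply, hx.1 g h, hy.1 g h]; abel,
    hx.2.1.add hy.2.1, ur_add hx.2.2.1 hy.2.2.1, fun l hl g hg v => by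
      simp only [Prod.fst_add, Prod.snd_add, Pi.add_apply, AddMonoidHom.add_apply,
        hx.2.2.2.1 l hl g hg, hy.2.2.2.1 l hl g hg]; abel,
    fun l hl => by
      rw [Prod.snd_add, Pi.add_apply, hx.2.2.2.2 l hl, hy.2.2.2.2 l hl, add_zero]⟩
  zero_mem' := ⟨fun _ _ _ => by simp, op_zero, fun _ _ _ _ _ _ => rfl,
    fun _ _ _ _ _ => by simp, fun _ _ => rfl⟩
  neg_mem' {x} hx := ⟨fun g h v => by
      simp only [Prod.fst_neg, Pi.neg_apply, AddMonoidHom.neg_apply, hx.1 g h]; abel,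
    op_neg hx.2.1, ur_map hx.2.2.1 (fun v => -v) neg_zero, fun l hl g hg v => by
      simp only [Prod.fst_neg, Prod.snd_neg, Pi.neg_apply, AddMonoidHom.neg_apply,
        hx.2.2.2.1 l hl g hg]; abel,
    fun l hl => by rw [Prod.snd_neg, Pi.neg_apply, hx.2.2.2.2 l hl, neg_zero]⟩

/-- the group of local invariants -/
def FG (a : Ac V) (T : Finset ℕ) (D : ℕ → Set GQ) : AddSubgroup (ℕ → Du V) where
  carrier := Fd a T D
  add_mem' {x y} hx hy := ⟨fun l hl g hg v => by
      simp only [Pi.add_apply, AddMonoidHom.add_apply, hx.1 l hl g hg, hy.1 l hl g hg],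
    fun l hl => by rw [Pi.add_apply, hx.2 l hl, hy.2 l hl, add_zero]⟩
  zero_mem' := ⟨fun _ _ _ _ _ => rfl, fun _ _ => rfl⟩
  neg_mem' {x} hx := ⟨fun l hl g hg v => by
      simp only [Pi.neg_apply, AddMonoidHom.neg_apply, hx.1 l hl g hg],
    fun l hl => by rw [Pi.neg_apply, hx.2 l hl, neg_zero]⟩

theorem fin_fg [Finite V] (a : Ac V) (T : Finset ℕ) (D : ℕ → Set GQ) : Finite (FG a T D) := by
  haveI : Finite (Du V) := Finite.of_injective _ DFunLike.coe_injective
  refine Finite.of_injective (fun n : FG a T D => fun l : T => n.1 l) fun n m h => ?_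
  refine Subtype.ext (funext fun l => ?_)
  by_cases k : l ∈ T
  · exact congrFun h ⟨l, k⟩
  · rw [n.2.2 l k, m.2.2 l k]

theorem z_one {a : Ac V} {T : Finset ℕ} {y : GQ → V} (hy : y ∈ Z1 a T) : y 1 = 0 := by
  have := hy.1 1 1
  rw [mul_one, map_one] at this
  exact left_eq_add.1 this

variable {S W : Type} [AddCommGroup S] [AddCommGroup W] {s : Ac S} {a : Ac V} {c : Ac W}
  {i : S →+ V} {p : V →+ W} {T : Finset ℕ} {D : ℕ → Set GQ}

/-- a splitting of abelian groups -/
structure Sp (i : S →+ V) (p : V →+ W) (r : V →+ S) (σ : W →+ V) : Prop where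
  ri : ∀ x, r (i x) = x
  ps : ∀ w, p (σ w) = w
  rs : ∀ w, r (σ w) = 0
  id : ∀ v, i (r v) + σ (p v) = v

theorem ex_sp (h2 : ∀ v : V, v + v = 0) (E : Ex s a c i p) : ∃ r σ, Sp i p r σ := by
  letI : Module (ZMod 2) V := AddCommGroup.zmodModule (n := 2) fun x => by rw [two_nsmul, h2]
  letI : Module (ZMod 2) S := AddCommGroup.zmodModule (n := 2) fun x => E.inj (by
    rw [two_nsmul, map_add, h2, map_zero])
  letI : Module (ZMod 2) W := AddCommGroup.zmodModule (n := 2) fun x => by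
    obtain ⟨v, rfl⟩ := E.sur x
    rw [two_nsmul, ← map_add, h2, map_zero]
  obtain ⟨r, hr⟩ := (i.toZModLinearMap 2).exists_leftInverse_of_injective
    (LinearMap.ker_eq_bot.2 E.inj)
  obtain ⟨q, hq⟩ := (p.toZModLinearMap 2).exists_rightInverse_of_surjective
    (LinearMap.range_eq_top.2 E.sur)
  have r1 : ∀ x, r (i x) = x := fun x => LinearMap.congr_fun hr x
  have q1 : ∀ w, p (q w) = w := fun w => LinearMap.congr_fun hq w
  have pi : ∀ x, p (i x) = 0 := fun x => (E.ex _).2 ⟨x, rfl⟩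
  refine ⟨r.toAddMonoidHom, q.toAddMonoidHom - i.comp (r.toAddMonoidHom.comp q.toAddMonoidHom),
    r1, fun w => ?_, fun w => ?_, fun v => ?_⟩
  · show p (q w - i (r (q w))) = w
    rw [map_sub, q1, pi, sub_zero]
  · show r (q w - i (r (q w))) = 0
    rw [map_sub, r1, sub_self]
  · show i (r v) + (q (p v) - i (r (q (p v)))) = v
    obtain ⟨x, hx⟩ := (E.ex (v - q (p v))).1 (by rw [map_sub, q1, sub_self])
    have : r v - r (q (p v)) = x := by rw [← map_sub, ← hx, r1]
    rw [add_sub_left_comm, ← map_sub, this, hx, add_sub_cancel]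

variable {r : V →+ S} {σ : W →+ V}

theorem act1 (E : Ex s a c i p) {u : GQ} (h : a u = 1) : (∀ w, c u w = w) ∧ s u = 1 :=
  ⟨fun w => by
    obtain ⟨v, rfl⟩ := E.sur w
    rw [← E.ep, h]; rfl, AddMonoidHom.ext fun x => E.inj ((E.ei u x).trans (by rw [h]; rfl))⟩

/-- the obstruction -/
def ob (a : Ac V) (r : V →+ S) (σ : W →+ V) (y : GQ → W) (g h : GQ) : S := r (a g (σ (y h)))

theorem i_ob (E : Ex s a c i p) (P : Sp i p r σ) {y : GQ → W} (hy : y ∈ Z1 c T) (g h : GQ) :
    i (ob a r σ y g h) = σ (y g) + a g (σ (y h)) - σ (y (g * h)) := by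
  have := P.id (a g (σ (y h)))
  rw [E.ep, P.ps] at this
  rw [hy.1, map_add, ob, eq_sub_iff_add_eq, add_left_comm, this]

/-- the level of the obstruction -/
def lev (a : Ac V) {y : GQ → W} (hy : y ∈ Z1 c T) : Subgroup GQ where
  carrier := {g | a g = 1 ∧ y g = 0}
  mul_mem' {g h} hg hh := ⟨by rw [map_mul, hg.1, hh.1, mul_one],
    by rw [hy.1, hg.2, hh.2, map_zero, add_zero]⟩
  one_mem' := ⟨map_one a, z_one hy⟩
  inv_mem' {g} hg := ⟨a.ker.inv_mem hg.1, by
    have := hy.1 g⁻¹ g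
    rw [inv_mul_cancel, z_one hy, hg.2, map_zero, add_zero] at this
    exact this.symm⟩

theorem ob_ob (M : Md a T) (E : Ex s a c i p) (P : Sp i p r σ) {y : GQ → W} (hy : y ∈ Z1 c T) :
    Ob s T (lev a hy) (ob a r σ y) where
  opn := by
    obtain ⟨U, hU, h⟩ := hy.2.1
    exact Subgroup.isOpen_mono (H₁ := a.ker ⊓ U) (fun g hg => ⟨hg.1, h g hg.2⟩) (M.opn.inter hU)
  unr l hl Q hQ g hg := ⟨M.unr l hl Q hQ g hg, hy.2.2 l hl Q hQ g hg⟩
  act u hu := (act1 E hu.1).2
  coc g h k := E.inj (by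
    rw [map_add, map_add, E.ei]
    simp only [i_ob E P hy, map_add, map_sub, map_mul, mul_assoc, AddMonoid.End.coe_mul,
      Function.comp_apply]
    abel)
  il u hu g h := ⟨by rw [ob, ob, map_mul, hu.1, mul_one], by rw [ob, ob, map_mul, hu.1, one_mul]⟩
  ir u hu g h := ⟨by rw [ob, ob, hy.1, hu.2, map_zero, add_zero],
    by rw [ob, ob, hy.1, hu.2, zero_add, (act1 E hu.1).1]⟩
  one g := ⟨by rw [ob, z_one hy, map_zero, map_zero, map_zero], by
    rw [ob, map_one]; exact P.rs _⟩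

theorem ob_z2 {U : Subgroup GQ} {O : GQ → GQ → S} (h : Ob s T U O) {H : Subgroup GQ} (f : Du S)
    (hf : ∀ g ∈ H, ∀ v, f (s g v) = f v) : Z2 H fun g k => f (O g k) := by
  refine ⟨?_, fun g k l => ?_⟩
  · have l1 : IsLocallyConstant fun q : GQ × GQ => O q.1 q.2 := by
      refine (IsLocallyConstant.iff_exists_open _).2 fun q =>
        ⟨((fun u => q.1⁻¹ * u) ⁻¹' U) ×ˢ ((fun u => q.2⁻¹ * u) ⁻¹' U),
          (h.opn.preimage (by fun_prop)).prod (h.opn.preimage (by fun_prop)), by simp,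
          fun y hy => ?_⟩
      rw [← (h.il _ hy.1 q.1 q.2).1, ← (h.ir _ hy.2 _ q.2).1, mul_inv_cancel_left,
        mul_inv_cancel_left]
    exact (l1.comp f).comp_continuous (f := fun q : H × H => ((q.1 : GQ), (q.2 : GQ)))
      (by fun_prop)
  · simp only [rs, Subgroup.coe_mul]
    rw [← hf g g.2 (O k l), ← map_add, h.coc, map_add]

theorem orth (hP : Pl T D) (M : Md a T) (E : Ex s a c i p) (P : Sp i p r σ)
    {inv : ℕ → (GQ → GQ → ZMod 2) →+ ZMod 2}
    (h1 : ∀ l ∈ T, ∀ z, Z2 (Subgroup.closure (D l)) z →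
      (inv l z = 0 ↔ Cb (Subgroup.closure (D l)) z))
    (h2 : ∀ z, Z2 ⊤ z → (∀ l ∉ T, ∀ P : Ideal (𝓞 Qb), Ov l P → Cb (dec P) z) →
      ∑ l ∈ T, inv l z = 0)
    {w : (GQ → Du V) × (ℕ → Du V)} (hw : w ∈ Wt a T D) (w0 : ∀ g x, w.1 g (i x) = 0)
    {y : GQ → W} (hy : y ∈ Z1 c T) :
    ∑ l ∈ T, inv l (fun g h => w.2 l (i (ob a r σ y g h))) = 0 := by
  have ly : IsLocallyConstant y := lc _ (ob_ob M E P hy).opn fun g u hu => by
    rw [hy.1, hu.2, map_zero, add_zero]
  have lw : IsLocallyConstant w.1 := by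
    obtain ⟨U, hU, h⟩ := hw.2.1
    exact lc (a.ker ⊓ U) (M.opn.inter hU) fun g u hu => AddMonoidHom.ext fun v => by
      rw [hw.1, show a u = 1 from hu.1, h u hu.2]; exact add_zero _
  have z2 : IsZ2 fun g h => w.1 g (σ (y h)) := by
    refine ⟨((lw.comp_continuous continuous_fst).prodMk (ly.comp_continuous continuous_snd)).comp
      fun q => q.1 (σ q.2), fun g h k => ?_⟩
    have := w0 g (ob a r σ y h k)
    rw [i_ob E P hy, map_sub, map_add] at this
    simp only [hw.1]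
    linear_combination -this
  rw [← h2 _ (Gy.z2_rs ⊤ z2) fun l hl Q hQ => ?_]
  · refine Finset.sum_congr rfl fun l hl => ?_
    have cb : Cb (Subgroup.closure (D l)) ((fun g h => w.2 l (i (ob a r σ y g h))) -
        fun g h => w.1 g (σ (y h))) := by
      refine ⟨fun g => -w.2 l (σ (y g)),
        (ly.comp fun x => -w.2 l (σ x)).comp_continuous continuous_subtype_val, fun g h => ?_⟩
      simp only [rs, Subgroup.coe_mul, Pi.sub_apply, i_ob E P hy, map_add, map_sub,
        hw.2.2.2.1 l hl g ((H35.mem_cl (hP.dec l hl) g).1 g.2)]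
      ring
    have := (h1 l hl _ (Gy.cob_z2 cb)).2 cb
    rwa [map_sub, sub_eq_zero] at this
  · have := unrC (ZMod 2) ⊤ l Q _ isOpen_univ hQ (Gy.z2_rs _ z2) fun g _ h _ u _ hu => ⟨by
      simp only [hw.1, M.unr l hl Q hQ u hu, hw.2.2.1 l hl Q hQ u hu]; exact add_zero _,
      by simp only [hy.1, hy.2.2 l hl Q hQ u hu, map_zero, add_zero]⟩
    rwa [top_inf_eq] at this

theorem kil (P : Sp i p r σ) {f : Du V} (h : ∀ x, f (i x) = 0) (v : V) : f (σ (p v)) = f v := by
  conv_rhs => rw [← P.id v, map_add, h, zero_add]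

/-- restriction of the cocycle -/
def f1 (a : Ac V) (T : Finset ℕ) (D : ℕ → Set GQ) (i : S →+ V) : WG a T D →+ (GQ → Du S) where
  toFun w g := (w.1.1 g).comp i
  map_zero' := rfl
  map_add' _ _ := rfl

theorem f1_ker {w : WG a T D} (h : w ∈ (f1 a T D i).ker) (g : GQ) (x : S) : w.1.1 g (i x) = 0 :=
  DFunLike.congr_fun (congrFun h g) x

/-- restriction of the trivialisations -/
def f2 (E : Ex s a c i p) (T : Finset ℕ) (D : ℕ → Set GQ) : (f1 a T D i).ker →+ FG s T D where
  toFun w := ⟨fun l => (w.1.1.2 l).comp i, fun l hl g hg x => by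
    have := w.1.2.2.2.2.1 l hl g hg (i x)
    rw [f1_ker w.2, eq_comm, sub_eq_zero, ← E.ei] at this
    exact this, fun l hl => congrArg (fun f : Du V => f.comp i) (w.1.2.2.2.2.2 l hl)⟩
  map_zero' := rfl
  map_add' _ _ := rfl

/-- projection of cocycles -/
def g1 (E : Ex s a c i p) (T : Finset ℕ) : ZG a T →+ ZG c T where
  toFun y := ⟨fun g => p (y.1 g), fun g h => by
    show p (y.1 (g * h)) = p (y.1 g) + c g (p (y.1 h))
    rw [y.2.1, map_add, E.ep],
    op_map y.2.2.1 p p.map_zero, ur_map y.2.2.2 p p.map_zero⟩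
  map_zero' := Subtype.ext (funext fun _ => p.map_zero)
  map_add' _ _ := Subtype.ext (funext fun _ => p.map_add _ _)

/-- the invariants of the obstruction -/
def g2 (inv : ℕ → (GQ → GQ → ZMod 2) →+ ZMod 2) (s : Ac S) (a : Ac V) (c : Ac W) (r : V →+ S)
    (σ : W →+ V) (T : Finset ℕ) (D : ℕ → Set GQ) : ZG c T →+ Du (FG s T D) :=
  AddMonoidHom.mk' (fun y => AddMonoidHom.mk'
    (fun f => ∑ l ∈ T, inv l fun g h => f.1 l (ob a r σ y.1 g h)) fun f f' => by
      rw [← Finset.sum_add_distrib]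
      exact Finset.sum_congr rfl fun l _ => by rw [← map_add]; rfl) fun y y' =>
    AddMonoidHom.ext fun f => by
      simp only [AddMonoidHom.mk'_apply, AddMonoidHom.add_apply]
      rw [← Finset.sum_add_distrib]
      refine Finset.sum_congr rfl fun l _ => ?_
      rw [← map_add]
      congr 1
      funext g h
      simp only [ob, AddSubgroup.coe_add, Pi.add_apply, map_add]

theorem step (hI : INV) : STEP := by
  intro S _ s T D hP hO hS hC V W _ _ a c i p M E hW
  obtain ⟨inv, h1, h2⟩ := hI T D hP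
  obtain ⟨r, σ, P⟩ := ex_sp M.two E
  haveI := M.fin
  haveI : Finite S := Finite.of_injective i E.inj
  haveI := fin_fg s T D
  have a1 : #(f1 a T D i).range ≤ #(Bd s) := by
    refine Cardinal.mk_le_mk_of_subset ?_
    rintro _ ⟨w, rfl⟩
    refine hS (fun g => (w.1.1 g).comp i, fun l => (w.1.2 l).comp i) ⟨fun g h x => ?_,
      op_map w.2.2.1 (fun f => f.comp i) rfl, ur_map w.2.2.2.1 (fun f => f.comp i) rfl,
      fun l hl g hg x => ?_,
      fun l hl => congrArg (fun f : Du V => f.comp i) (w.2.2.2.2.2 l hl)⟩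
    · show w.1.1 (g * h) (i x) = w.1.1 g (i (s h x)) + w.1.1 h (i x)
      rw [w.2.1, E.ei]
    · show w.1.1 g (i x) = w.1.2 l (i (s g x)) - w.1.2 l (i x)
      rw [w.2.2.2.2.1 l hl g hg, E.ei]
  have k2 : ∀ w : (f2 E T D).ker, ∀ l x, w.1.1.1.2 l (i x) = 0 := fun w l x =>
    DFunLike.congr_fun (congrFun (congrArg Subtype.val w.2) l) x
  have cs : ∀ {f : Du V}, (∀ x, f (i x) = 0) → ∀ g x, f (σ (c g x)) = f (a g (σ x)) :=
    fun h g x => by rw [← kil P h (a g (σ x)), E.ep, P.ps]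
  have a2 : #(f2 E T D).ker ≤ #(Wt c T D) := by
    refine Cardinal.mk_le_of_injective (f := fun w =>
      ⟨(fun g => (w.1.1.1.1 g).comp σ, fun l => (w.1.1.1.2 l).comp σ), fun g h x => ?_,
        op_map w.1.1.2.2.1 (fun f => f.comp σ) rfl, ur_map w.1.1.2.2.2.1 (fun f => f.comp σ) rfl,
        fun l hl g hg x => ?_, fun l hl => congrArg (fun f : Du V => f.comp σ)
          (w.1.1.2.2.2.2.2 l hl)⟩) fun w w' e => ?_
    · show w.1.1.1.1 (g * h) (σ x) = w.1.1.1.1 g (σ (c h x)) + w.1.1.1.1 h (σ x)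
      rw [w.1.1.2.1, cs (f1_ker w.1.2 g)]
    · show w.1.1.1.1 g (σ x) = w.1.1.1.2 l (σ (c g x)) - w.1.1.1.2 l (σ x)
      rw [w.1.1.2.2.2.2.1 l hl g hg, cs (k2 w l)]
    · have e := congrArg Subtype.val e
      refine Subtype.ext (Subtype.ext (Subtype.ext (Prod.ext (funext fun g => ?_)
        (funext fun l => ?_)))) <;> refine AddMonoidHom.ext fun v => ?_
      · rw [← kil P (f1_ker w.1.2 g), ← kil P (f1_ker w'.1.2 g) v]
        exact DFunLike.congr_fun (congrFun (congrArg Prod.fst e) g) (p v)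
      · rw [← kil P (k2 w l), ← kil P (k2 w' l) v]
        exact DFunLike.congr_fun (congrFun (congrArg Prod.snd e) l) (p v)
  have a3 : #(Z1 s T) ≤ #(g1 E T).ker :=
    Cardinal.mk_le_of_injective (f := fun x => ⟨⟨fun g => i (x.1 g),
      fun g h => by
        show i (x.1 (g * h)) = i (x.1 g) + a g (i (x.1 h))
        rw [x.2.1, map_add, E.ei], op_map x.2.2.1 i i.map_zero,
      ur_map x.2.2.2 i i.map_zero⟩, Subtype.ext (funext fun g => (E.ex _).2 ⟨_, rfl⟩)⟩)
      fun x x' e => Subtype.ext (funext fun g =>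
        E.inj (congrFun (congrArg Subtype.val (congrArg Subtype.val e)) g))
  have a4 : #(g2 inv s a c r σ T D).ker ≤ #(g1 E T).range := by
    refine Cardinal.mk_le_mk_of_subset fun y hy => ?_
    have o := ob_ob M E P y.2
    obtain ⟨b, b1, b2, b3⟩ := hO _ _ o fun l hl f hf => by
      refine (h1 l hl _ (ob_z2 o f fun g hg => hf g ((H35.mem_cl (hP.dec l hl) g).1 hg))).1 ?_
      have := DFunLike.congr_fun (show g2 inv s a c r σ T D y = 0 from hy)
        ⟨Pi.single l f, fun l' _ g hg v => by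
          by_cases k : l' = l
          · subst k
            rw [Pi.single_eq_same]; exact hf g hg v
          · rw [Pi.single_eq_of_ne k]; rfl,
          fun l' hl' => Pi.single_eq_of_ne (fun k : l' = l => hl' (by rw [k]; exact hl)) _⟩
      refine Eq.trans ?_ this
      show _ = ∑ l' ∈ T, inv l' fun g h => Pi.single (M := fun _ => Du S) l f l' _
      rw [Finset.sum_eq_single_of_mem l hl fun l' _ k => by
        rw [Pi.single_eq_of_ne k]; exact map_zero _, Pi.single_eq_same]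
    refine ⟨⟨(fun g => σ (y.1 g)) + fun g => -i (b g), fun g h => ?_,
      (op_map y.2.2.1 σ σ.map_zero).add (op_map b1 (fun x => -i x) (by simp)),
      ur_add (ur_map y.2.2.2 σ σ.map_zero) (ur_map b2 (fun x => -i x) (by simp))⟩,
      Subtype.ext (funext fun g => ?_)⟩
    · have := i_ob E P y.2 g h
      rw [b3, map_sub, map_add, E.ei] at this
      simp only [Pi.add_apply, map_add, map_neg]
      linear_combination (norm := abel1) this
    · show p (σ (y.1 g) + -i (b g)) = y.1 g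
      rw [map_add, map_neg, P.ps, (E.ex _).2 ⟨_, rfl⟩, neg_zero, add_zero]
  have a5 : #(f2 E T D).range * #(g2 inv s a c r σ T D).range ≤ #(Fd s T D) := by
    refine card_orth (X := FG s T D) (fun f => Subtype.ext (funext fun l =>
      AddMonoidHom.ext fun x => CharTwo.add_self_eq_zero _)) _ _ ?_
    rintro _ ⟨w, rfl⟩ _ ⟨y, rfl⟩
    exact orth hP M E P h1 h2 w.1.2 (f1_ker w.2) y.2
  calc #(Wt a T D) = #(f1 a T D i).range * (#(f2 E T D).range * #(f2 E T D).ker) := by
        rw [← card_hom, ← card_hom]; rfl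
    _ ≤ #(Bd s) * (#(f2 E T D).range *
          (#(g2 inv s a c r σ T D).range * #(g2 inv s a c r σ T D).ker)) := by
        rw [← card_hom (g2 inv s a c r σ T D)]
        exact mul_le_mul' a1 (mul_le_mul' le_rfl (a2.trans hW))
    _ ≤ #(Bd s) * #(Fd s T D) * #(g1 E T).range := by
        rw [mul_assoc, ← mul_assoc (#(f2 E T D).range)]
        exact mul_le_mul' le_rfl (mul_le_mul' a5 a4)
    _ ≤ #(g1 E T).range * #(g1 E T).ker := by
        rw [mul_comm]
        exact mul_le_mul' le_rfl (hC.trans a3)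
    _ = #(Z1 a T) := (card_hom _).symm

end St

end P022G.Lb
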