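import Vale.Agent.P022G.Lb.Defs
import Vale.Agent.P022G.Obs.Loc
import Vale.Agent.P022G.Obs.Sc2
import Vale.Agent.P022G.Ax.Gal
import Vale.Agent.P022E.GW.Hnpg
import Vale.Agent.P022E.GW.UnrC
import Vale.Agent.P022E.GW.ChrC
import Vale.Agent.P022E.GW.Kc

/-!
# P022G, block Lb: the trivial module of order two
-/

set_option linter.all false

noncomputable section

namespace P022G.Lb

open NumberField Cardinal IsDedekindDomain
open Vale.Agent.P022 Vale.Agent.P022.C
open Vale.Agent.P027M.S (Inert)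
open Vale.Agent.P022D.Sel (M2 IsDec Ginf Big ov el Stab)
open Vale.Agent.P022D.W (dec)
open Vale.Agent.P022E.GW
open Vale.Agent.P022E.GW.Kc (kq rt)

variable {T : Finset ℕ} {D : ℕ → Set GQ}

namespace Triv

theorem one_ap (g : GQ) (v : ZMod 2) : (1 : Ac (ZMod 2)) g v = v := rfl

/-- a decomposition group is a subgroup -/
theorem sub {l : ℕ} {A : Set GQ} (h : IsDec l A) :
    ((Subgroup.closure A : Subgroup GQ) : Set GQ) = A := by
  obtain ⟨-, c, ⟨φ, hc⟩, rfl⟩ | ⟨-, P, -, -, rfl⟩ := h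
  · have cc : c * c = 1 := AlgEquiv.ext fun x => φ.injective (by
      rw [AlgEquiv.mul_apply, hc, hc, Complex.conj_conj]; rfl)
    let S : Subgroup GQ :=
      { carrier := {1, c}
        mul_mem' := by
          rintro a b (rfl | rfl) (rfl | rfl)
          · exact Or.inl (one_mul _)
          · exact Or.inr (one_mul _)
          · exact Or.inr (mul_one _)
          · exact Or.inl cc
        one_mem' := Or.inl rfl
        inv_mem' := by
          rintro a (rfl | rfl)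
          · exact Or.inl inv_one
          · exact Or.inr (inv_eq_of_mul_eq_one_right cc) }
    exact congrArg SetLike.coe (Subgroup.closure_eq S)
  · exact congrArg SetLike.coe (Subgroup.closure_eq (dec P))

theorem pr (hP : Pl T D) : ∀ l ∈ T, l = 0 ∨ l.Prime := fun l hl =>
  (hP.dec l hl).imp (fun h => h.1) fun h => h.1

theorem ob (hP : Pl T D) : OB (1 : Ac (ZMod 2)) T D := by
  intro U O hO hl
  have lc : IsLocallyConstant fun p : GQ × GQ => O p.1 p.2 := by
    refine (IsLocallyConstant.iff_exists_open _).2 fun p =>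
      ⟨{q | p.1⁻¹ * q.1 ∈ U} ∩ {q | p.2⁻¹ * q.2 ∈ U},
        (hO.opn.preimage (continuous_const.mul continuous_fst)).inter
          (hO.opn.preimage (continuous_const.mul continuous_snd)), ⟨by simp, by simp⟩,
        fun q hq => ?_⟩
    rw [← mul_inv_cancel_left p.1 q.1, ← mul_inv_cancel_left p.2 q.2, (hO.il _ hq.1 _ _).1,
      (hO.ir _ hq.2 _ _).1]
  have hz : Z2 ⊤ O :=
    ⟨lc.comp_continuous (f := fun p : (⊤ : Subgroup GQ) × (⊤ : Subgroup GQ) =>
      ((p.1 : GQ), (p.2 : GQ))) (by fun_prop), fun g h k => hO.coc g h k⟩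
  have hc : Cb ⊤ O := by
    refine hasseCC (ZMod 2) ⊤ O isOpen_univ hz fun l B hB => ?_
    by_cases m : l ∈ T
    · have hA : IsDec l ((Subgroup.closure (D l) : Subgroup GQ) : Set GQ) := by
        rw [sub (hP.dec l m)]; exact hP.dec l m
      exact Vale.Agent.P022G.Obs.Sc2.mv hA hB hz
        (One.cb_mono inf_le_right (hl l m (AddMonoidHom.id _) fun _ _ _ => rfl))
    · obtain ⟨l0, -⟩ | ⟨lp, P, p0, p1, e⟩ := hB
      · exact absurd (l0 ▸ hP.h0) m
      · have : B = dec P := SetLike.coe_injective e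
        rw [this]
        exact unrC (ZMod 2) ⊤ l P O isOpen_univ ⟨lp, p0, p1⟩ (One.z2_mono inf_le_left hz)
          fun g _ h _ i _ hi => ⟨(hO.il i (hO.unr l m P ⟨lp, p0, p1⟩ i hi) g h).1,
            (hO.ir i (hO.unr l m P ⟨lp, p0, p1⟩ i hi) g h).1⟩
  obtain ⟨w, hw, ⟨V, hV, -, h0⟩, hu⟩ := Vale.Agent.P022G.Obs.fix
    (Vale.Agent.P022G.Ax.fx_top hP.h2 (pr hP)) O hc (hO.one 1).1 (fun _ _ _ _ _ _ => trivial)
    fun l m P h i hi g => ⟨by
      rw [← (hO.one g).1, ← (hO.ir i (hO.unr l m P h i hi) g 1).1, one_mul], by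
      rw [← (hO.one g).2, ← (hO.il i (hO.unr l m P h i hi) 1 g).1, one_mul]⟩
  refine ⟨w, ⟨V, hV, fun σ h => h0 σ trivial h⟩, hu, fun g h => ?_⟩
  rw [one_ap, hw g trivial h trivial]
  generalize O g h = a
  generalize w g = b
  generalize w h = c
  revert a b c
  decide

theorem big (A : Finset ℕ) : Big ℚ A := fun v _ => by
  haveI : IsPrincipalIdealRing (𝓞 ℚ) := IsPrincipalIdealRing.of_surjective
    Rat.ringOfIntegersEquiv.symm Rat.ringOfIntegersEquiv.symm.surjective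
  obtain ⟨x, hx⟩ := (IsPrincipalIdealRing.principal v.asIdeal).principal
  have x0 : x ≠ 0 := fun z => v.ne_bot (by rw [hx, z]; exact Ideal.span_singleton_eq_bot.2 rfl)
  refine ⟨x, by simpa using x0, ?_, fun v' _ q => ?_⟩
  · rw [ordv, HeightOneSpectrum.valuation_of_algebraMap, v.intValuation_singleton x0 hx,
      WithZero.log_exp, neg_neg]
  · exact Vale.Agent.P022G.Ax.o_int fun z => q (HeightOneSpectrum.ext
      (v.isMaximal.eq_of_le v'.isPrime.ne_top (by
        rw [hx]; exact (Ideal.span_singleton_le_iff_mem _).2 z)).symm)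

theorem int_of {x : ℚ} (h : ∀ v : HeightOneSpectrum (𝓞 ℚ), v.valuation ℚ x ≤ 1) :
    ∃ n : ℤ, (n : ℚ) = x := by
  obtain ⟨a, rfl⟩ := HeightOneSpectrum.mem_integers_of_valuation_le_one ℚ x h
  exact IsIntegrallyClosed.algebraMap_eq_of_integral (R := ℤ) a.isIntegral_coe

theorem unit {x : ℚ} (x0 : x ≠ 0) (h : ∀ v : HeightOneSpectrum (𝓞 ℚ), v.valuation ℚ x = 1) :
    x = 1 ∨ x = -1 := by
  obtain ⟨n, hn⟩ := int_of fun v => (h v).le
  obtain ⟨m, hm⟩ := int_of (x := x⁻¹) fun v => by rw [map_inv₀, h v, inv_one]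
  have e : n * m = 1 := by
    have : ((n * m : ℤ) : ℚ) = 1 := by rw [Int.cast_mul, hn, hm, mul_inv_cancel₀ x0]
    exact_mod_cast this
  rcases Int.eq_one_or_neg_one_of_mul_eq_one e with k | k
  · left; rw [← hn, k, Int.cast_one]
  · right; rw [← hn, k]; simp

/-- a quadratic character of `ℚ` which is unramified everywhere is trivial -/
theorem zero (φ : GQ → ZMod 2) (ha : ∀ g h, φ (g * h) = φ g + φ h) (ho : Op φ)
    (hu : ∀ l P, Ov l P → ∀ g, Inert P g → φ g = 0) {c : GQ} (hc : IsConj c) (h0 : φ c = 0)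
    (g : GQ) : φ g = 0 := by
  have e : ∀ g : GQ, g ∈ GK (algebraMap ℚ Qb) := fun g x => g.commutes x
  obtain ⟨U, hU, hU0⟩ := ho
  obtain ⟨u, hu⟩ := Kc.kq_surjU (algebraMap ℚ Qb) (big ∅) φ (fun g _ h _ => ha g h)
    ⟨U, hU, fun σ h _ => hU0 σ h⟩ fun l lp _ P p0 p1 g _ hi => hu l P ⟨lp, p0, p1⟩ g hi
  rcases unit (Vale.Agent.P022D.Sel.KillAux.el_ne u) (fun v =>
    Vale.Agent.P022D.Sel.KillAux.el_val u v (by rintro ⟨l, hl, -⟩; simp at hl)) with k | k
  · rw [hu g (e g), k, Kc.kq_oneL]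
  · exfalso
    rw [hu c (e c), k, Kc.kq_zero (Kc.rt_sq _)] at h0
    obtain ⟨ψ, hψ⟩ := hc
    rw [map_neg, map_one] at h0
    have h1 := hψ (rt (-1))
    rw [h0] at h1
    have h2 := congrArg ψ (Kc.rt_sq (-1))
    rw [map_pow, map_neg, map_one] at h2
    have h3 := Complex.conj_eq_iff_im.1 h1.symm
    have h4 := congrArg Complex.re h2
    rw [sq, Complex.mul_re, h3] at h4
    simp only [Complex.neg_re, Complex.one_re] at h4
    nlinarith [mul_self_nonneg (ψ (rt (-1))).re]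

theorem du_ext {f f' : Du (ZMod 2)} (h : f 1 = f' 1) : f = f' :=
  AddMonoidHom.ext fun v => by
    rcases Kc.z2 v with rfl | rfl
    · rw [map_zero, map_zero]
    · exact h

theorem sh (hP : Pl T D) : SH (1 : Ac (ZMod 2)) T D := by
  rintro w ⟨ha, ⟨U, hU, h0⟩, hu, hd, -⟩
  have add : ∀ g h, w.1 (g * h) 1 = w.1 g 1 + w.1 h 1 := fun g h => ha g h 1
  have o1 : w.1 1 1 = 0 := by rw [h0 1 U.one_mem]; rfl
  have cj : ∀ g x, w.1 (g⁻¹ * x * g) 1 = w.1 x 1 := fun g x => by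
    have := add g⁻¹ g
    rw [inv_mul_cancel, o1] at this
    rw [add, add, add_right_comm, ← this, zero_add]
  have loc : ∀ l ∈ T, ∀ B, IsDec l B → ∀ x ∈ B, w.1 x 1 = 0 := fun l m B hB x hx => by
    obtain ⟨g, hg⟩ := Lb.dec_cj (hP.dec l m) hB
    rw [← cj g x, hd l m _ ((hg x).1 hx), one_ap, sub_self]
  obtain ⟨-, c, hc, e⟩ | ⟨lp, -⟩ := hP.dec 0 hP.h0
  swap
  · exact absurd lp Nat.not_prime_zero
  have z := zero (fun g => w.1 g 1) add
    ⟨U, hU, fun σ h => congrArg (fun f : Du (ZMod 2) => f 1) (h0 σ h)⟩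
    (fun l P h g hi => by
      by_cases m : l ∈ T
      · exact loc l m _ (Or.inr ⟨h.1, P, h.2.1, h.2.2, rfl⟩) g
          (Vale.Agent.P022D.W.inP_le_dec hi)
      · show w.1 g 1 = 0
        rw [hu l m P h g hi]; rfl) hc
    (loc 0 hP.h0 _ (hP.dec 0 hP.h0) c (e ▸ Or.inr rfl))
  exact ⟨0, fun g v => by rw [du_ext (f := w.1 g) (f' := 0) (z g)]; simp⟩

theorem cn (hP : Pl T D) : CN (1 : Ac (ZMod 2)) T D := by
  have b : #(Bd (1 : Ac (ZMod 2))) ≤ 1 := by
    refine Cardinal.le_one_iff_subsingleton.2 ⟨?_⟩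
    rintro ⟨x, m, hm⟩ ⟨y, n, hn⟩
    exact Subtype.ext (funext fun g => AddMonoidHom.ext fun v => by
      show x g v = y g v
      rw [hm, hn, one_ap, sub_self, sub_self])
  obtain ⟨f, hf⟩ := _root_.rank_le_iff_exists_linearMap.1
    (chrC (ZMod 2) ⊤ (fun _ => 1) T D isOpen_univ rfl (fun _ _ _ _ => (mul_one _).symm)
      ⟨⊤, isOpen_univ, fun _ _ => rfl⟩ hP.h0 hP.h2 hP.dec fun _ _ _ _ _ _ _ => rfl).1
  let i : Fd (1 : Ac (ZMod 2)) T D → Ft (fun _ => (1 : ZMod 2)) T D ⊤ := fun n =>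
    ⟨fun l _ => n.1 l 1, fun l m => funext fun _ => by
      show n.1 l 1 = 0
      rw [n.2.2 l m]; rfl, fun _ _ _ _ => (one_mul _).symm, fun _ _ _ _ => rfl⟩
  have hi : Function.Injective i := fun n n' e => Subtype.ext (funext fun l =>
    du_ext (congrFun (congrFun (congrArg Subtype.val e) l) 1))
  let k : Zt (fun _ => (1 : ZMod 2)) T ⊤ → Z1 (1 : Ac (ZMod 2)) T := fun z =>
    ⟨z.1, fun g h => by rw [z.2.1 g trivial h trivial, one_mul, one_ap], z.2.2.2.1, z.2.2.2.2⟩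
  have hk : Function.Injective k := fun z z' e =>
    Subtype.ext (congrArg (fun x : Z1 (1 : Ac (ZMod 2)) T => x.1) e)
  exact (mul_le_mul_left b _).trans
    ((one_mul _).le.trans (Cardinal.mk_le_of_injective (hk.comp (hf.comp hi))))

end Triv

/-- **row TRIV** -/
theorem triv (hP : Pl T D) :
    OB (1 : Ac (ZMod 2)) T D ∧ SH (1 : Ac (ZMod 2)) T D ∧ CN (1 : Ac (ZMod 2)) T D :=
  ⟨Triv.ob hP, Triv.sh hP, Triv.cn hP⟩

end P022G.Lb
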