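import Vale.Agent.P022G.Lb.Inv
import Mathlib.GroupTheory.PGroup

/-!
# P022G, block Lb: the lower bound for unipotent modules
-/

set_option linter.all false

noncomputable section

namespace P022G.Lb

namespace Un

open NumberField Cardinal
open Vale.Agent.P022
open Vale.Agent.P022E.GW

theorem fixv {V : Type} [AddCommGroup V] [Finite V] [Nontrivial V] (h2 : ∀ v : V, v + v = 0)
    (a : Ac V) (h : ∀ g, ∃ k, a (g ^ 2 ^ k) = 1) : ∃ v : V, v ≠ 0 ∧ ∀ g, a g v = v := by
  have hp : IsPGroup 2 a.toHomUnits.range := by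
    rintro ⟨_, g, rfl⟩
    obtain ⟨k, hk⟩ := h g
    refine ⟨k, Subtype.ext (Units.ext ?_)⟩
    rw [Subgroup.coe_pow, ← map_pow]
    exact hk
  obtain ⟨x, hx⟩ := exists_ne (0 : V)
  have d : 2 ∣ Nat.card V := by
    rw [← addOrderOf_eq_prime (p := 2) (x := x) (by rw [two_nsmul, h2]) hx]
    exact addOrderOf_dvd_natCard x
  obtain ⟨v, hv, n⟩ := hp.exists_fixed_point_of_prime_dvd_card_of_fixed_point V d (a := 0)
    fun m => smul_zero m
  exact ⟨v, n.symm, fun g => hv ⟨_, g, rfl⟩⟩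

/-- the line through `v` -/
def ln {V : Type} [AddCommGroup V] (v : V) (h : v + v = 0) : ZMod 2 →+ V :=
  AddMonoidHom.mk' (fun x => x.val • v) fun x y => by
    rcases Kc.z2 x with rfl | rfl
    · rw [zero_add, ZMod.val_zero, zero_nsmul, zero_add]
    · rcases Kc.z2 y with rfl | rfl
      · rw [add_zero, ZMod.val_zero, zero_nsmul, add_zero]
      · show 0 • v = 1 • v + 1 • v
        rw [one_nsmul, zero_nsmul, h]

/-- the action on a quotient -/
def qa {V : Type} [AddCommGroup V] (a : Ac V) (N : AddSubgroup V)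
    (h : ∀ g, N ≤ N.comap (a g : V →+ V)) : Ac (V ⧸ N) where
  toFun g := QuotientAddGroup.map N N (a g) (h g)
  map_one' := AddMonoidHom.ext fun x => by
    obtain ⟨x, rfl⟩ := QuotientAddGroup.mk_surjective x
    show ((a 1 x : V) : V ⧸ N) = x
    rw [map_one]; rfl
  map_mul' g k := AddMonoidHom.ext fun x => by
    obtain ⟨x, rfl⟩ := QuotientAddGroup.mk_surjective x
    show ((a (g * k) x : V) : V ⧸ N) = ((a g (a k x) : V) : V ⧸ N)
    rw [map_mul]; rfl

variable {T : Finset ℕ} {D : ℕ → Set GQ}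

theorem ind (hs : Stp (1 : Ac (ZMod 2)) T D) (n : ℕ) : ∀ (V : Type) [AddCommGroup V] (a : Ac V),
    Nat.card V = n → Md a T → (∀ g, ∃ k, a (g ^ 2 ^ k) = 1) → Lw a T D := by
  induction n using Nat.strong_induction_on with
  | _ n ih =>
  intro V _ a hn M h
  haveI := M.fin
  rcases subsingleton_or_nontrivial V with k | k
  · haveI : Subsingleton (Du V) := ⟨fun f g => AddMonoidHom.ext fun v => by
      rw [Subsingleton.elim v 0, map_zero, map_zero]⟩
    haveI : Nonempty (Z1 a T) := ⟨⟨0, (St.ZG a T).zero_mem⟩⟩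
    exact (Cardinal.le_one_iff_subsingleton.2 inferInstance).trans
      (Cardinal.one_le_iff_ne_zero.2 (Cardinal.mk_ne_zero _))
  obtain ⟨v, v0, hv⟩ := fixv M.two a h
  let i := ln v (M.two v)
  have ia : ∀ g x, a g (i x) = i x := fun g x => by
    show a g (x.val • v) = x.val • v
    rw [map_nsmul, hv]
  have hN : ∀ g, i.range ≤ i.range.comap (a g : V →+ V) := by
    rintro g _ ⟨x, rfl⟩
    exact ⟨x, (ia g x).symm⟩
  have E : Ex (1 : Ac (ZMod 2)) a (qa a i.range hN) i (QuotientAddGroup.mk' i.range) :=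
    ⟨(injective_iff_map_eq_zero i).2 fun x hx => (Kc.z2 x).resolve_right fun e => by
      subst e
      exact v0 ((one_nsmul v).symm.trans hx), QuotientAddGroup.mk'_surjective _,
      fun w => QuotientAddGroup.eq_zero_iff w, fun g x => (ia g x).symm, fun g w => rfl⟩
  have q1 : ∀ g, a g = 1 → qa a i.range hN g = 1 := fun g e =>
    AddMonoidHom.ext (St.act1 E e).1
  refine hs V _ a _ i _ M E (ih _ ?_ _ _ rfl ⟨inferInstance, fun x => ?_, ?_,
    fun l hl P hP g hg => q1 g (M.unr l hl P hP g hg)⟩ fun g => (h g).imp fun k e => q1 _ e)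
  · haveI : Nontrivial i.range := ⟨⟨0, ⟨v, 1, one_nsmul v⟩, fun e =>
      v0 (congrArg Subtype.val e).symm⟩⟩
    rw [← hn, AddSubgroup.card_eq_card_quotient_mul_card_addSubgroup i.range]
    exact lt_mul_of_one_lt_right Nat.card_pos Finite.one_lt_card
  · obtain ⟨x, rfl⟩ := QuotientAddGroup.mk_surjective x
    rw [← QuotientAddGroup.mk_add, M.two, QuotientAddGroup.mk_zero]
  · exact Subgroup.isOpen_mono (H₁ := a.ker) (H₂ := (qa a i.range hN).ker) q1 M.opn

/-- **the lower bound for unipotent modules** -/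
theorem uni (hP : Pl T D) (h3 : 3 ∈ T) (h7 : 7 ∈ T)
    (ht : OB (1 : Ac (ZMod 2)) T D ∧ SH (1 : Ac (ZMod 2)) T D ∧ CN (1 : Ac (ZMod 2)) T D)
    {V : Type} [AddCommGroup V] {a : Ac V} (M : Md a T) (h : ∀ g, ∃ k, a (g ^ 2 ^ k) = 1) :
    Lw a T D :=
  ind (St.stp hP (Rp.inv37 hP h3 h7) ht.1 ht.2.1 ht.2.2) _ V a rfl M h

end Un

end P022G.Lb
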